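import Vale.Agent.P218UO.Om

/-! Barriers from above for the lower boundary of the set of levels at quiet points. -/

open MeasureTheory Set Filter Topology Metric
open scoped RealInnerProductSpace ContDiff

namespace Vale.Agent.P218UO

open Vale.Agent.P218UA Vale.Agent.P218UL Vale.Agent.P218UG Vale.Agent.P218UM
open Vale.Agent.P218.H63 (lap)

lemma fderiv_aff {F : ST → ℝ} {p : ST} (hF : ContDiffAt ℝ 2 F p) (a b : ℝ) (v : ST) :
    fderiv ℝ (fun q => a + b * F q) p v = b * fderiv ℝ F p v := by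
  rw [(((diff1 hF).hasFDerivAt.const_mul b).const_add a).fderiv]
  rfl

lemma D2_aff {F : ST → ℝ} {p : ST} (hF : ContDiffAt ℝ 2 F p) (a b : ℝ) (v : ST) :
    D2 (fun q => a + b * F q) p v = b * D2 F p v := by
  rw [D2_add contDiffAt_const (contDiffAt_const.mul hF), D2_mul contDiffAt_const hF, D2_const,
    D2_const]
  simp

lemma lap_frame {W : E3 → ℝ} (hS : IsSurf W) {z a b : E3} (hz : W z = 0) (ha : ‖a‖ = 1)
    (hb : ‖b‖ = 1) (hab : ⟪a, b⟫ = 0) (h1 : ⟪a, gradient W z⟫ = 0) (h2 : ⟪b, gradient W z⟫ = 0) :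
    lap W z = ⟪a, hs W z a⟫ + ⟪b, hs W z b⟫ := by
  have hF : Fr (cr a b) a b := ⟨ha, hb, hab, rfl⟩
  have h3 := hF.expand (gradient W z)
  have h4 := hF.normSq (gradient W z)
  have h5 := inner_hs_grad hS hz (cr a b)
  rw [h1, h2, zero_smul, zero_smul, zero_add, zero_add] at h3
  rw [h1, h2, surf_unit hS hz] at h4
  rw [h3, real_inner_smul_right, real_inner_comm (cr a b)] at h5
  have h6 : ⟪cr a b, hs W z (cr a b)⟫ = 0 := by
    refine (mul_eq_zero.1 h5).resolve_left fun h => ?_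
    rw [h] at h4
    norm_num at h4
  have h7 := hF.trace (hs W z)
  rw [h6, add_zero] at h7
  exact h7

variable {w : ℝ → E3 → ℝ} {I : Set ℝ} {A σ θ δ c₁ : ℝ}

/-- `P` touches the lower boundary of the set of levels from above and is a supersolution -/
structure Bar (w : ℝ → E3 → ℝ) (I : Set ℝ) (A σ θ c D : ℝ) (p : ST) (y : ℝ) (P : ST → ℝ) :
    Prop where
  cd : ContDiffAt ℝ 2 P p
  eq : P p = y
  above : ∀ᶠ q in 𝓝 p, w q.1 q.2 = 0 → ∀ y', P q < y' → y' ∈ Om w I A σ θ q.1 q.2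
  sup : ∀ e₁ e₂, Fr (Nu w p) e₁ e₂ →
    c * Gf e₁ e₂ P p ≤ Lf e₁ e₂ P p ∧ Real.exp (2 * y) * Gf e₁ e₂ P p ≤ D

/-- the barrier given by the averaged mass ratio -/
lemma bar_mass (hC : Calc) (hD : CylDensStmt) (hw : IsARFlow w I A) (hσ : 0 < σ)
    (hσA : σ * A ^ 2 ≤ 1 / 10 ^ 5) (hθ : θ ≤ 1 / 10) (hc : c₁ ≤ 1) {p : ST} {y s L : ℝ}
    (ha : Icc (p.1 - σ * Real.exp (2 * s)) p.1 ⊆ I) (hR : Reg (w p.1) θ p.2 (Real.exp s))
    (h : 3 / 2 ≤ tb w σ (p, s)) (hs : y - L ≤ s) (hy : s + 10 * (2 * A - tb w σ (p, s)) = y) :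
    Bar w I A σ θ c₁ (204800 * A ^ 2 * Real.exp (2 * L)) p y
      fun q => (s + 20 * A) + (-10) * tb w σ (q, s) := by
  have hA := hw.one_le
  have hT := cd_tb' hC hw.toIsFlow hσ ha
  refine ⟨contDiffAt_const.add (contDiffAt_const.mul hT), by linarith, ?_, fun e₁ e₂ hF => ?_⟩
  · filter_upwards [continuousAt_fst.eventually (ev_win hw.toIsFlow (by positivity) ha),
      hT.continuousAt.eventually (lt_mem_nhds (show 13 / 10 < tb w σ (p, s) by linarith))]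
      with q h1 h2 _ y' h3
    exact Or.inr ⟨s, h1, h2, lt_of_eq_of_lt (by simp only [tb]; ring) h3⟩
  have h1 := tb_drop hC hD hw hσ (by nlinarith) hθ ha hR h
  have h2 := tb_D2 hC hw hσ ha hF.n1
  have h3 := tb_D2 hC hw hσ ha hF.n2
  have h4 := sq_le_sq' (abs_le.1 (tb_grad hC hw hσ ha hF.n1)).1 (abs_le.1 (tb_grad hC hw hσ ha hF.n1)).2
  have h5 := sq_le_sq' (abs_le.1 (tb_grad hC hw hσ ha hF.n2)).1 (abs_le.1 (tb_grad hC hw hσ ha hF.n2)).2
  have hr := Real.exp_pos s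
  have hG : Gf e₁ e₂ (fun q => (s + 20 * A) + (-10) * tb w σ (q, s)) p
      ≤ 204800 * A ^ 2 / Real.exp s ^ 2 := by
    rw [Gf, fderiv_aff hT, fderiv_aff hT]
    have : (32 * A / Real.exp s) ^ 2 = 1024 * A ^ 2 / Real.exp s ^ 2 := by ring
    have : 204800 * A ^ 2 / Real.exp s ^ 2 = 200 * (1024 * A ^ 2 / Real.exp s ^ 2) := by ring
    nlinarith
  have hG0 : 0 ≤ Gf e₁ e₂ (fun q => (s + 20 * A) + (-10) * tb w σ (q, s)) p := by
    rw [Gf]; positivity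
  constructor
  · refine (mul_le_of_le_one_left hG0 hc).trans (hG.trans ?_)
    rw [Lf, fderiv_aff hT, D2_aff hT, D2_aff hT]
    have h6 : 204800 * A ^ 2 / Real.exp s ^ 2 + 20 * (8 * A / Real.exp s ^ 2)
        ≤ -10 * (-(3 / 10) / (σ * Real.exp s ^ 2)) := by
      have : -10 * (-(3 / 10) / (σ * Real.exp s ^ 2)) = 3 / σ / Real.exp s ^ 2 := by field_simp
      rw [this, ← mul_div_assoc, ← add_div]
      refine div_le_div_of_nonneg_right ?_ (by positivity)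
      rw [le_div_iff₀ hσ]
      nlinarith [mul_le_mul_of_nonneg_left (show A ≤ A ^ 2 by nlinarith) hσ.le]
    linarith
  · refine (mul_le_mul_of_nonneg_left hG (Real.exp_pos _).le).trans ?_
    have h6 : Real.exp (2 * y) ≤ Real.exp (2 * L) * Real.exp s ^ 2 := by
      rw [sq, ← Real.exp_add, ← Real.exp_add]
      exact Real.exp_le_exp.2 (by linarith)
    rw [← mul_div_assoc, div_le_iff₀ (by positivity)]
    nlinarith [mul_le_mul_of_nonneg_left h6 (by positivity : 0 ≤ 204800 * A ^ 2)]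

/-- the rotation of one tangent plane onto the other -/
lemma exists_rot {ν e : E3} (hν : ⟪ν, ν⟫ = 1) (he : ⟪e, e⟫ = 1) {c : ℝ} (hc : ⟪e, ν⟫ = c)
    (hc0 : 0 < 1 + c) : ∃ R : E3 →L[ℝ] E3,
      (∀ τ, R τ - τ = -(((1 + c)⁻¹ * ⟪e, τ⟫) • (ν + e))) ∧ (∀ τ, ⟪e, R τ⟫ = 0) ∧
      ∀ τ τ', ⟪τ, ν⟫ = 0 → ⟪τ', ν⟫ = 0 → ⟪R τ, R τ'⟫ = ⟪τ, τ'⟫ := by
  obtain ⟨R, hR⟩ : ∃ R : E3 →L[ℝ] E3, ∀ τ, R τ = τ - ((1 + c)⁻¹ * ⟪e, τ⟫) • (ν + e) :=
    ⟨ContinuousLinearMap.id ℝ E3 - ((1 + c)⁻¹ • innerSL ℝ e).smulRight (ν + e), fun τ => rfl⟩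
  refine ⟨R, fun τ => by rw [hR, sub_sub_cancel_left], fun τ => ?_, fun τ τ' h1 h2 => ?_⟩
  · rw [hR, inner_sub_right, real_inner_smul_right, inner_add_right, he, hc]
    field_simp
    ring
  · rw [hR, hR]
    simp only [inner_sub_left, inner_sub_right, real_inner_smul_right, real_inner_smul_left,
      inner_add_left, inner_add_right, hν, he, hc, h1, real_inner_comm τ' ν, h2,
      real_inner_comm e ν, real_inner_comm e τ]
    field_simp
    ring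

/-- the vector from a moving point of the surface to a second moving point -/
lemma exists_V (hw : IsFlow w I) {p : ST} (hp : p.1 ∈ I) {z : E3} (hz : w p.1 z = 0)
    (R : E3 →L[ℝ] E3) (hR : ∀ τ, ⟪Nu w (p.1, z), R τ⟫ = 0) :
    ∃ V : ST → E3, ContDiffAt ℝ 2 V p ∧ V p = z - p.2 ∧ (∀ᶠ q in 𝓝 p, w q.1 (V q + q.2) = 0) ∧
      fderiv ℝ V p tv = -(lap (w p.1) z • Nu w (p.1, z)) ∧
      (∀ τ, fderiv ℝ V p (sp τ) = R τ - τ) ∧
      ∀ τ, D2 V p (sp τ) = -(⟪R τ, hs (w p.1) z (R τ)⟫ • Nu w (p.1, z)) := by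
  set L : ST →L[ℝ] ST := (ContinuousLinearMap.id ℝ ℝ).prodMap R with hL
  set Φ : ST → ST := fun q => ((0, z - R p.2) : ST) + L q with hΦ
  have hΦ1 : ∀ q, (Φ q).1 = q.1 := fun q => by simp [hΦ, hL]
  have hΦp : Φ p = (p.1, z) := by simp [hΦ, hL, Prod.ext_iff]
  have hΦc : ContDiffAt ℝ 2 Φ p := contDiffAt_const.add L.contDiff.contDiffAt
  have hΦd : fderiv ℝ Φ p = L := by rw [hΦ, fderiv_const_add, L.fderiv]
  have hf : ContDiffAt ℝ 2 (ft w) (Φ p) := by rw [hΦp]; exact cd_ft hw hp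
  have hZ : ContDiffAt ℝ 2 (fun q => ft w (Φ q)) p := ContDiffAt.comp p (g := ft w) (f := Φ) hf hΦc
  have hV1 : ∀ v, fderiv ℝ (fun q => ft w (Φ q) - q.2) p v
      = (L v).2 - fderiv ℝ (Wt w) (p.1, z) (L v) • Nu w (p.1, z) - v.2 := by
    intro v
    have h1 : HasFDerivAt (fun q => ft w (Φ q) - q.2) _ p :=
      ((diff1 hf).hasFDerivAt.comp p (diff1 hΦc).hasFDerivAt).sub hasFDerivAt_snd
    rw [h1.fderiv, hΦd, hΦp, ← fderiv_ft hw (p := (p.1, z)) hp hz]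
    rfl
  have hLs : ∀ τ, L (sp τ) = sp (R τ) := fun τ => by simp [hL]
  have hW0 : ∀ τ, fderiv ℝ (Wt w) (p.1, z) (sp (R τ)) = 0 := fun τ => by
    rw [fderiv_Wt_sp hw (p := (p.1, z)) hp, hR]
  refine ⟨fun q => ft w (Φ q) - q.2, hZ.sub contDiffAt_snd,
    by simp only [hΦp, ft_self (p := (p.1, z)) hz], ?_, ?_, fun τ => ?_, fun τ => ?_⟩
  · have h1 : ∀ᶠ q in 𝓝 p, w (Φ q).1 (ft w (Φ q)) = 0 :=
      hΦc.continuousAt.eventually (p := fun a : ST => w a.1 (ft w a) = 0)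
        (by rw [hΦp]; exact ev_foot hw (p := (p.1, z)) hp hz)
    filter_upwards [h1] with q hq
    rwa [sub_add_cancel, ← hΦ1]
  · rw [hV1, show L tv = tv by simp [hL], fderiv_Wt_tv hw (p := (p.1, z)) hp hz]
    simp
  · rw [hV1, hLs, hW0, zero_smul, sub_zero]
  · have h3 := D2_clm (ContinuousLinearMap.snd ℝ ℝ E3) 0 p (sp τ)
    simp only [zero_add, ContinuousLinearMap.coe_snd'] at h3
    rw [D2_sub hZ contDiffAt_snd, D2_comp hf hΦc, hΦd, hLs, D2_clm, map_zero, add_zero, hΦp,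
      D2_ft hw (p := (p.1, z)) hp hz (hW0 τ), show D2 (fun q : ST => q.2) p (sp τ) = 0 from h3,
      sub_zero, ← hs_space (cd_Wt hw (p := (p.1, z)) hp)]
    rfl

/-- the heat operator of the logarithm of the distance -/
lemma log_calc {V : ST → E3} {p : ST} (hV : ContDiffAt ℝ 2 V p) {ν ν₁ e e₁ e₂ : E3} {k c : ℝ}
    {h : E3 → ℝ} (hF : Fr ν e₁ e₂) (he : ⟪e, e⟫ = 1) (hc : ⟪e, ν⟫ = c) (hc0 : 0 < 1 + c)
    (hk : k ≠ 0) (h0 : V p = k • e) (ht : fderiv ℝ V p tv = -((h e₁ + h e₂) • ν₁))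
    (h1 : ∀ τ, fderiv ℝ V p (sp τ) = -(((1 + c)⁻¹ * ⟪e, τ⟫) • (ν + e)))
    (h2 : ∀ τ, D2 V p (sp τ) = -(h τ • ν₁)) :
    Gf e₁ e₂ (fun q => 0 + 2⁻¹ * Real.log ⟪V q, V q⟫) p = (1 - c ^ 2) / k ^ 2 ∧
      Lf e₁ e₂ (fun q => 0 + 2⁻¹ * Real.log ⟪V q, V q⟫) p = 2 * c * (1 - c) / k ^ 2 := by
  have hSc : ContDiffAt ℝ 2 (fun q => ⟪V q, V q⟫) p := hV.inner ℝ hV
  have hSp : ⟪V p, V p⟫ = k ^ 2 := by
    rw [h0, real_inner_smul_left, real_inner_smul_right, he]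
    ring
  have hS0 : ⟪V p, V p⟫ ≠ 0 := by rw [hSp]; positivity
  have hS1 : ∀ v, fderiv ℝ (fun q => ⟪V q, V q⟫) p v = 2 * (k * ⟪e, fderiv ℝ V p v⟫) := fun v => by
    rw [fderiv_inner_apply ℝ (diff1 hV) (diff1 hV), h0, real_inner_smul_left,
      real_inner_smul_right, real_inner_comm e]
    ring
  have hlog : ContDiffAt ℝ 2 (fun q => Real.log ⟪V q, V q⟫) p := hSc.log hS0
  have hab : ⟪e, e₁⟫ ^ 2 + ⟪e, e₂⟫ ^ 2 = 1 - c ^ 2 := by
    have h1 := hF.normSq e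
    rw [← real_inner_self_eq_norm_sq, he, real_inner_comm e e₁, real_inner_comm e e₂,
      real_inner_comm e ν, hc] at h1
    linarith
  have hes : ⟪e, ν + e⟫ = 1 + c := by rw [inner_add_right, he, hc, add_comm]
  have hss : ⟪ν + e, ν + e⟫ = 2 * (1 + c) := by
    rw [inner_add_left, hes, inner_add_right, hF.i33, real_inner_comm e ν, hc]
    ring
  have g1 : ∀ τ, fderiv ℝ (fun q => ⟪V q, V q⟫) p (sp τ) = -(2 * k * ⟪e, τ⟫) := fun τ => by
    rw [hS1, h1, inner_neg_right, real_inner_smul_right, hes]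
    field_simp
  have g2 : ∀ τ, D2 (fun q => ⟪V q, V q⟫) p (sp τ) = -(2 * k * h τ * ⟪e, ν₁⟫)
      + 4 * ⟪e, τ⟫ ^ 2 / (1 + c) := fun τ => by
    rw [D2_inner hV hV, h2, h1, h0]
    simp only [inner_neg_left, inner_neg_right, real_inner_smul_left, real_inner_smul_right, hss,
      real_inner_comm e ν₁]
    field_simp
    ring
  constructor
  · rw [Gf, fderiv_aff hlog, fderiv_aff hlog, fderiv_log' (diff1 hSc) hS0,
      fderiv_log' (diff1 hSc) hS0, g1, g1, hSp, ← hab]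
    field_simp
  · rw [Lf, fderiv_aff hlog, D2_aff hlog, D2_aff hlog, fderiv_log' (diff1 hSc) hS0, D2_log hSc hS0,
      D2_log hSc hS0, g1, g1, g2, g2, hS1, ht, hSp, inner_neg_right, real_inner_smul_right]
    field_simp
    linear_combination (4 * c) * hab

/-- the two-point barrier -/
lemma bar_sep (hw : IsFlow w I) (hθ : 0 < θ) (hθ1 : θ ≤ 1 / 10) (hθc : θ ≤ c₁ / 10) {p : ST}
    (hp : p.1 ∈ I) {y D : ℝ} (hD : 1 ≤ D) (h0 : w p.1 p.2 = 0) {z : E3} (hz : w p.1 z = 0)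
    (hd : ‖z - p.2‖ = Real.exp y) (hh : c₁ * Real.exp (y + 1 / 2) ≤ |⟪z - p.2, Nu w p⟫|)
    (hn : z - p.2 = ⟪Nu w (p.1, z), z - p.2⟫ • Nu w (p.1, z)) :
    ∃ P, Bar w I A σ θ c₁ D p y P := by
  have hr := Real.exp_pos y
  obtain ⟨k, hk, hkc⟩ : ∃ k : ℝ, k ^ 2 = Real.exp y ^ 2 ∧
      k⁻¹ * ⟪z - p.2, Nu w p⟫ = |⟪z - p.2, Nu w p⟫| / Real.exp y := by
    rcases le_total 0 ⟪z - p.2, Nu w p⟫ with h | h
    · exact ⟨Real.exp y, rfl, by rw [abs_of_nonneg h]; field_simp⟩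
    · exact ⟨-Real.exp y, by ring, by rw [abs_of_nonpos h]; field_simp⟩
  have hk0 : k ≠ 0 := fun h => by rw [h] at hk; nlinarith
  obtain ⟨e, he⟩ : ∃ e, e = k⁻¹ • (z - p.2) := ⟨_, rfl⟩
  have hde : z - p.2 = k • e := by rw [he, smul_smul, mul_inv_cancel₀ hk0, one_smul]
  have hee : ⟪e, e⟫ = 1 := by
    rw [he, real_inner_smul_left, real_inner_smul_right, real_inner_self_eq_norm_sq, hd, ← hk]
    field_simp
  have hνν : ⟪Nu w p, Nu w p⟫ = 1 := by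
    rw [real_inner_self_eq_norm_sq, norm_Nu hw hp h0]; norm_num
  obtain ⟨c, hc⟩ : ∃ c, ⟪e, Nu w p⟫ = c := ⟨_, rfl⟩
  have hcc : c₁ ≤ c := by
    rw [← hc, he, real_inner_smul_left, hkc, le_div_iff₀ hr]
    exact le_trans (mul_le_mul_of_nonneg_left (Real.exp_le_exp.2 (by linarith)) (by linarith)) hh
  have hc0 : 0 < 1 + c := by linarith
  have hc1 : c ≤ 1 := by
    have h1 := real_inner_self_nonneg (x := e - Nu w p)
    rw [inner_sub_left, inner_sub_right, inner_sub_right, hee, hνν, real_inner_comm e, hc] at h1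
    linarith
  have ha0 : ⟪Nu w (p.1, z), z - p.2⟫ ≠ 0 := fun h => by
    rw [hn, h, zero_smul, norm_zero] at hd
    exact hr.ne hd
  obtain ⟨R, r1, r2, r3⟩ := exists_rot hνν hee hc hc0
  have hνe : ∀ τ, ⟪Nu w (p.1, z), R τ⟫ = 0 := fun τ => by
    have h1 : ⟪z - p.2, R τ⟫ = 0 := by rw [hde, real_inner_smul_left, r2, mul_zero]
    rw [hn, real_inner_smul_left] at h1
    exact (mul_eq_zero.1 h1).resolve_left ha0
  have hRn : ∀ τ, ⟪τ, Nu w p⟫ = 0 → ‖τ‖ = 1 → ‖R τ‖ = 1 := fun τ h1 h2 => by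
    have h3 := r3 τ τ h1 h1
    rw [real_inner_self_eq_norm_sq, real_inner_self_eq_norm_sq, h2] at h3
    exact (pow_left_inj₀ (norm_nonneg _) zero_le_one two_ne_zero).1 h3
  obtain ⟨V, v1, v2, v3, v4, v5, v6⟩ := exists_V hw hp hz R hνe
  have hSc : ContDiffAt ℝ 2 (fun q => ⟪V q, V q⟫) p := v1.inner ℝ v1
  have hSp : ⟪V p, V p⟫ = Real.exp y ^ 2 := by rw [real_inner_self_eq_norm_sq, v2, hd]
  have hS0 : 0 < ⟪V p, V p⟫ := by rw [hSp]; positivity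
  refine ⟨fun q => 0 + 2⁻¹ * Real.log ⟪V q, V q⟫,
    contDiffAt_const.add (contDiffAt_const.mul (hSc.log hS0.ne')), ?_, ?_, fun e₁ e₂ hF => ?_⟩
  · rw [hSp, Real.log_pow, Real.log_exp]
    ring
  · have h2 : ∀ᶠ q in 𝓝 p, 3 * θ * ‖V q‖ < |⟪V q, Nu w q⟫| := by
      refine (continuousAt_const.mul v1.continuousAt.norm).eventually_lt
        (v1.continuousAt.inner (cd_Nu hw hp).continuousAt).abs ?_
      change 3 * θ * ‖V p‖ < _
      rw [v2]
      exact (height_lt hθ hθc hd.le).trans_le hh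
    filter_upwards [v3, h2, continuousAt_fst.eventually (hw.isOpen.mem_nhds hp),
      hSc.continuousAt.eventually (lt_mem_nhds hS0)] with q e1 e2 e3 e4 e5 y' e6
    refine Or.inl (not_reg hw e3 e5 e1 hθ.le hθ1 ?_ (by rwa [add_sub_cancel_right]))
    have h3 : ⟪V q, V q⟫ < Real.exp y' ^ 2 := by
      rw [sq, ← Real.exp_add, ← Real.log_lt_iff_lt_exp e4]
      linarith
    rw [real_inner_self_eq_norm_sq] at h3
    rw [add_sub_cancel_right]
    exact lt_of_pow_lt_pow_left₀ 2 (Real.exp_pos _).le h3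
  have hl := lap_frame (flow_slice hw hp) hz (hRn _ hF.o13 hF.n1) (hRn _ hF.o23 hF.n2)
    ((r3 _ _ hF.o13 hF.o23).trans hF.o12) ((real_inner_comm _ _).trans (hνe e₁))
    ((real_inner_comm _ _).trans (hνe e₂))
  rw [hl] at v4
  obtain ⟨hG, hLf⟩ := log_calc (h := fun τ => ⟪R τ, hs (w p.1) z (R τ)⟫) v1 hF hee hc hc0 hk0
    (v2.trans hde) v4 (fun τ => (v5 τ).trans (r1 τ)) v6
  rw [hG, hLf]
  have h1 : 0 ≤ c := by linarith
  constructor
  · rw [← mul_div_assoc]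
    refine div_le_div_of_nonneg_right ?_ (sq_nonneg k)
    have h2 : 0 ≤ (c - c₁) * ((1 - c) * (1 + c)) :=
      mul_nonneg (sub_nonneg.2 hcc) (mul_nonneg (sub_nonneg.2 hc1) hc0.le)
    linarith [mul_nonneg h1 (sq_nonneg (1 - c))]
  · rw [hk, two_mul, Real.exp_add, ← sq, mul_div_cancel₀ _ (by positivity)]
    linarith [sq_nonneg c]

/-- at a quiet point the lower boundary has a barrier -/
theorem exists_bar (hC : Calc) (hL : Cell) (hD : CylDensStmt) (hw : IsARFlow w I A)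
    (hq : QS w I A c₁ θ σ δ) (hσ : 0 < σ) (hσA : σ * A ^ 2 ≤ 1 / 10 ^ 5) (hθ : 0 < θ)
    (hθc : θ ≤ c₁ / 10) (hc : c₁ ≤ 1) {p : ST} {y : ℝ} (hp : w p.1 p.2 = 0)
    (hQ : Quiet w I δ p.1 p.2 y) (hy : Om w I A σ θ p.1 p.2 = Ioi y) :
    ∃ P, Bar w I A σ θ c₁ (204800 * A ^ 2 * Real.exp (2 * (20 * A - 13 + 3))) p y P := by
  have hA := hw.one_le
  have hσ1 : σ ≤ 1 := by nlinarith [mul_le_mul_of_nonneg_left (show 1 ≤ A ^ 2 by nlinarith) hσ.le]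
  have hθ1 : θ ≤ 1 / 10 := by linarith
  have hpI := quiet_mem hQ
  have hf : ∃ᶠ a : ST × ℝ in 𝓝 (p, y), w a.1.1 a.1.2 = 0 ∧ a.2 ∈ Om w I A σ θ a.1.1 a.1.2 := by
    have h1 : Tendsto (fun s : ℝ => ((p, s) : ST × ℝ)) (𝓝[>] y) (𝓝 (p, y)) :=
      (Continuous.tendsto' (by fun_prop) _ _ rfl).mono_left nhdsWithin_le_nhds
    refine h1.frequently (Eventually.frequently ?_)
    filter_upwards [self_mem_nhdsWithin] with s hs
    exact ⟨hp, by rw [hy]; exact hs⟩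
  have hno : ∀ s, s ≤ y → s ∉ Om w I A σ θ p.1 p.2 := fun s hs h => by
    rw [hy] at h
    exact absurd h (not_lt.2 hs)
  rcases key hC hL hw hq hσ hσ1 hQ hf with ⟨z, h1, h2, h3⟩ | ⟨s, h1, h2, h3⟩ | ⟨s, h0, h1, h2, h3⟩
  · have far : ∀ z', w p.1 z' = 0 → 3 * θ * ‖z' - p.2‖ < |⟪z' - p.2, Nu w p⟫| →
        Real.exp y ≤ ‖z' - p.2‖ := fun z' e1 e2 =>
      not_lt.1 fun e3 => hno y le_rfl (Or.inl (not_reg hw.toIsFlow hpI hp e1 hθ.le hθ1 e3 e2))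
    have h4 := (height_lt hθ hθc h2).trans_le h3
    have h5 := le_antisymm h2 (far z h1 h4)
    refine bar_sep hw.toIsFlow hθ hθ1 hθc hpI ?_ hp h1 h5 h3
      (normal_of_min hw.toIsFlow hpI h1 ?_)
    · have := Real.one_le_exp (show 0 ≤ 2 * (20 * A - 13 + 3) by linarith)
      nlinarith [mul_le_mul (show 1 ≤ A ^ 2 by nlinarith) this zero_le_one (sq_nonneg A)]
    · filter_upwards [(by fun_prop : ContinuousAt (fun z' : E3 => 3 * θ * ‖z' - p.2‖) z).eventually_lt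
        (by fun_prop : ContinuousAt (fun z' : E3 => |⟪z' - p.2, Nu w p⟫|) z) h4] with z' e1 e2
      exact h5 ▸ far z' e2 e1
  · exact absurd (Or.inr ⟨s, quiet_win hσ1 hQ h1, h2, h3⟩) (hno y le_rfl)
  · have h4 := quiet_win hσ1 hQ (show s ≤ y + 1 by linarith)
    refine ⟨_, bar_mass hC hD hw hσ hσA hθ1 hc h4 ?_ h2 (by linarith) (le_antisymm h3 ?_)⟩
    · by_contra h
      exact hno s (by linarith) (Or.inl h)
    · exact not_lt.1 fun h => hno y le_rfl (Or.inr ⟨s, h4, lt_of_lt_of_le (by norm_num) h2, h⟩)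

end Vale.Agent.P218UO
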