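import Vale.Agent.P218UO.Op

/-! The heat operator of an integral with a moving lower end point. -/

open MeasureTheory Set Filter Topology Metric
open scoped RealInnerProductSpace ContDiff

namespace Vale.Agent.P218UO

section general

variable {X : Type} [NormedAddCommGroup X] [NormedSpace ℝ X] {g : X × ℝ → ℝ} {U : Set X}

/-- the integral from the level `a.2` up to the level `y₁` -/
noncomputable def Gam (g : X × ℝ → ℝ) (y₁ : ℝ) (a : X × ℝ) : ℝ := ∫ y in a.2..y₁, g (a.1, y)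

lemma int_unit (h : ℝ → ℝ) (a b : ℝ) :
    ∫ y in a..b, h y = (b - a) * ∫ τ in (0 : ℝ)..1, h (a + (b - a) * τ) := by
  rw [intervalIntegral.mul_integral_comp_add_mul]
  simp

lemma cd_g (hU : IsOpen U) (hg : ContDiffOn ℝ 2 g (U ×ˢ univ)) {a : X × ℝ} (ha : a.1 ∈ U) :
    ContDiffAt ℝ 2 g a :=
  hg.contDiffAt ((hU.prod isOpen_univ).mem_nhds ⟨ha, trivial⟩)

lemma cd_Gam (hU : IsOpen U) (hg : ContDiffOn ℝ 2 g (U ×ˢ univ)) (y₁ : ℝ) {a : X × ℝ}
    (ha : a.1 ∈ U) : ContDiffAt ℝ 2 (Gam g y₁) a := by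
  have e : Gam g y₁ = fun a => (y₁ - a.2) * ∫ τ in (0 : ℝ)..1, g (a.1, a.2 + (y₁ - a.2) * τ) :=
    funext fun a => int_unit (fun y => g (a.1, y)) _ _
  rw [e]
  refine ContDiffAt.mul (by fun_prop) (parInt (f := fun z : (X × ℝ) × ℝ =>
    g (z.1.1, z.1.2 + (y₁ - z.1.2) * z.2)) (W := {z | z.1.1 ∈ U})
    (hU.preimage (by fun_prop)) (fun z hz => ?_) fun _ _ => ha).1
  exact (ContDiffAt.comp z (g := g) (f := fun z : (X × ℝ) × ℝ =>
    ((z.1.1, z.1.2 + (y₁ - z.1.2) * z.2) : X × ℝ)) (cd_g hU hg hz) (by fun_prop)).contDiffWithinAt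

lemma slice_aff {F : X × ℝ → ℝ} {Z : Type} [NormedAddCommGroup Z] [NormedSpace ℝ Z]
    (L : Z →L[ℝ] X × ℝ) (c : X × ℝ) {z : Z} (hF : ContDiffAt ℝ 2 F (c + L z)) (v : Z) :
    fderiv ℝ (fun q => F (c + L q)) z v = fderiv ℝ F (c + L z) (L v) ∧
      D2 (fun q => F (c + L q)) z v = D2 F (c + L z) (L v) := by
  have h1 : HasFDerivAt (fun q => c + L q) L z := L.hasFDerivAt.const_add c
  constructor
  · have h2 : HasFDerivAt (fun q => F (c + L q)) _ z :=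
      HasFDerivAt.comp z (g := F) (diff1 hF).hasFDerivAt h1
    rw [h2.fderiv]
    rfl
  · rw [D2_comp (Φ := fun q => c + L q) hF (contDiffAt_const.add L.contDiff.contDiffAt), D2_clm,
      h1.fderiv, map_zero, add_zero]

lemma slice_fst {F : X × ℝ → ℝ} {p : X} {y : ℝ} (hF : ContDiffAt ℝ 2 F (p, y)) (v : X) :
    fderiv ℝ (fun q => F (q, y)) p v = fderiv ℝ F (p, y) (v, 0) ∧
      D2 (fun q => F (q, y)) p v = D2 F (p, y) (v, 0) := by
  simpa using slice_aff (F := F) (ContinuousLinearMap.inl ℝ X ℝ) (0, y) (z := p) (by simpa using hF) v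

lemma Gam_fst (hU : IsOpen U) (hg : ContDiffOn ℝ 2 g (U ×ˢ univ)) (y₁ : ℝ) {p : X} (hp : p ∈ U)
    (s : ℝ) (v : X) :
    fderiv ℝ (Gam g y₁) (p, s) (v, 0) = ∫ y in s..y₁, fderiv ℝ g (p, y) (v, 0) ∧
      D2 (Gam g y₁) (p, s) (v, 0) = ∫ y in s..y₁, D2 g (p, y) (v, 0) := by
  have h1 := slice_fst (cd_Gam hU hg y₁ (a := (p, s)) hp) v
  have e : (fun q => Gam g y₁ (q, s))
      = fun q => (y₁ - s) * ∫ τ in (0 : ℝ)..1, g (q, s + (y₁ - s) * τ) :=
    funext fun q => int_unit (fun y => g (q, y)) _ _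
  obtain ⟨h2, h3, h4⟩ := parInt (f := fun z : X × ℝ => g (z.1, s + (y₁ - s) * z.2))
    (W := {z | z.1 ∈ U}) (hU.preimage continuous_fst) (fun z hz =>
      (ContDiffAt.comp z (g := g) (f := fun z : X × ℝ => ((z.1, s + (y₁ - s) * z.2) : X × ℝ))
        (cd_g hU hg hz) (by fun_prop)).contDiffWithinAt) (p := p) fun _ _ => hp
  have h5 : ∀ τ, fderiv ℝ (fun z : X × ℝ => g (z.1, s + (y₁ - s) * z.2)) (p, τ) (v, 0)
      = fderiv ℝ g (p, s + (y₁ - s) * τ) (v, 0) ∧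
      D2 (fun z : X × ℝ => g (z.1, s + (y₁ - s) * z.2)) (p, τ) (v, 0)
      = D2 g (p, s + (y₁ - s) * τ) (v, 0) := fun τ => by
    simpa [Prod.map] using slice_aff (F := g) ((ContinuousLinearMap.id ℝ X).prodMap
      ((y₁ - s) • ContinuousLinearMap.id ℝ ℝ)) (0, s) (z := (p, τ))
      (cd_g hU hg (by simpa using hp)) (v, 0)
  rw [← h1.1, ← h1.2, e, D2_mul contDiffAt_const h2, D2_const, fderiv_const_mul (diff1 h2),
    int_unit, int_unit (fun y => D2 g (p, y) (v, 0)), h4]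
  simp only [smul_apply, h3, h5, smul_eq_mul]
  simp

omit [NormedSpace ℝ X] in
lemma cont_slice {h : X × ℝ → ℝ} (hh : ∀ a : X × ℝ, a.1 ∈ U → ContinuousAt h a)
    {p : X} (hp : p ∈ U) : Continuous fun y => h (p, y) :=
  continuous_iff_continuousAt.2 fun y => ContinuousAt.comp (g := h) (f := fun y : ℝ => (p, y))
    (hh _ hp) (by fun_prop)

lemma Gam_snd (hU : IsOpen U) (hg : ContDiffOn ℝ 2 g (U ×ˢ univ)) (y₁ : ℝ) {a : X × ℝ}
    (ha : a.1 ∈ U) : fderiv ℝ (Gam g y₁) a (0, 1) = -g a := by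
  have h1 : HasDerivAt (fun s : ℝ => ((a.1, s) : X × ℝ)) (0, 1) a.2 :=
    (hasDerivAt_const a.2 a.1).prodMk (hasDerivAt_id a.2)
  have h2 := HasFDerivAt.comp_hasDerivAt a.2 (l := Gam g y₁)
    (diff1 (cd_Gam hU hg y₁ ha)).hasFDerivAt h1
  have hc := cont_slice (fun a ha => (cd_g hU hg ha).continuousAt) ha
  exact h2.unique (intervalIntegral.integral_hasDerivAt_left (hc.intervalIntegrable _ _)
    (hc.stronglyMeasurableAtFilter _ _) hc.continuousAt)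

lemma Gam_D2 (hU : IsOpen U) (hg : ContDiffOn ℝ 2 g (U ×ˢ univ)) (y₁ : ℝ) {a : X × ℝ}
    (ha : a.1 ∈ U) (v : X) (s : ℝ) : D2 (Gam g y₁) a (v, s) = D2 (Gam g y₁) a (v, 0)
      - 2 * (s * fderiv ℝ g a (v, 0)) - s ^ 2 * fderiv ℝ g a (0, 1) := by
  have hG := cd_Gam hU hg y₁ ha
  have h1 : ∀ u, fderiv ℝ (fderiv ℝ (Gam g y₁)) a u (0, 1) = -fderiv ℝ g a u := fun u => by
    have h2 := (diff2 hG).hasFDerivAt.clm_apply (hasFDerivAt_const ((0, 1) : X × ℝ) a)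
    have h3 : (fun b => fderiv ℝ (Gam g y₁) b (0, 1)) =ᶠ[𝓝 a] fun b => -g b := by
      filter_upwards [continuousAt_fst.eventually (hU.mem_nhds ha)] with b hb
      exact Gam_snd hU hg y₁ hb
    have h4 := (diff1 (cd_g hU hg ha)).hasFDerivAt.neg.congr_of_eventuallyEq h3
    simpa using congrArg (fun L : X × ℝ →L[ℝ] ℝ => L u) (h2.unique h4)
  have h2 := (hG.isSymmSndFDerivAt (by simp)).eq (0, 1) (v, 0)
  have e : ((v, s) : X × ℝ) = (v, 0) + s • (0, 1) := by simp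
  rw [D2, D2, e]
  simp only [map_add, map_smul, add_apply, smul_apply, smul_eq_mul, h2, h1]
  ring

lemma Gam_comp (hU : IsOpen U) (hg : ContDiffOn ℝ 2 g (U ×ˢ univ)) (y₁ : ℝ) {p : X} (hp : p ∈ U)
    {P : X → ℝ} (hP : ContDiffAt ℝ 2 P p) :
    ContDiffAt ℝ 2 (fun q => Gam g y₁ (q, P q)) p ∧ ∀ v,
      fderiv ℝ (fun q => Gam g y₁ (q, P q)) p v = (∫ y in P p..y₁, fderiv ℝ g (p, y) (v, 0))
        - g (p, P p) * fderiv ℝ P p v ∧
      D2 (fun q => Gam g y₁ (q, P q)) p v = (∫ y in P p..y₁, D2 g (p, y) (v, 0))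
        - 2 * (fderiv ℝ P p v * fderiv ℝ g (p, P p) (v, 0))
        - fderiv ℝ P p v ^ 2 * fderiv ℝ g (p, P p) (0, 1) - g (p, P p) * D2 P p v := by
  have hG := cd_Gam hU hg y₁ (a := (p, P p)) hp
  have hΦ : ContDiffAt ℝ 2 (fun q => ((q, P q) : X × ℝ)) p := contDiffAt_id.prodMk hP
  have h1 : HasFDerivAt (fun q => ((q, P q) : X × ℝ)) _ p :=
    (hasFDerivAt_id p).prodMk (diff1 hP).hasFDerivAt
  have h2 : ∀ (v : X) (s : ℝ), fderiv ℝ (Gam g y₁) (p, P p) (v, s)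
      = fderiv ℝ (Gam g y₁) (p, P p) (v, 0) - g (p, P p) * s := fun v s => by
    rw [show ((v, s) : X × ℝ) = (v, 0) + s • (0, 1) by simp, map_add, map_smul,
      Gam_snd hU hg y₁ hp, smul_eq_mul]
    ring
  refine ⟨ContDiffAt.comp p (g := Gam g y₁) hG hΦ, fun v => ⟨?_, ?_⟩⟩
  · have h3 : HasFDerivAt (fun q => Gam g y₁ (q, P q)) _ p :=
      HasFDerivAt.comp p (g := Gam g y₁) (diff1 hG).hasFDerivAt h1
    rw [h3.fderiv, ← (Gam_fst hU hg y₁ hp _ v).1, ← h2]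
    rfl
  · have h3 : D2 (fun q => ((q, P q) : X × ℝ)) p v = (0, D2 P p v) := by
      have e : (fun q => ((q, P q) : X × ℝ)) = fun q => (0 + ContinuousLinearMap.inl ℝ X ℝ q)
          + ContinuousLinearMap.inr ℝ X ℝ (P q) := by
        ext q <;> simp
      have h4 := D2_clm (ContinuousLinearMap.inr ℝ X ℝ) 0 (P p) (fderiv ℝ P p v)
      simp only [zero_add] at h4
      have h5 : ContDiffAt ℝ 2 (fun q => ContinuousLinearMap.inr ℝ X ℝ (P q)) p :=
        (ContinuousLinearMap.inr ℝ X ℝ).contDiff.contDiffAt.comp p hP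
      rw [e, D2_add (F := fun q => 0 + ContinuousLinearMap.inl ℝ X ℝ q) (by fun_prop) h5,
        D2_clm, D2_comp (ContinuousLinearMap.inr ℝ X ℝ).contDiff.contDiffAt hP, h4,
        ContinuousLinearMap.fderiv]
      simp
    rw [D2_comp (G := Gam g y₁) (Φ := fun q => (q, P q)) hG hΦ, h3, h1.fderiv, h2, ← (Gam_fst hU hg y₁ hp _ v).2]
    change D2 (Gam g y₁) (p, P p) (v, fderiv ℝ P p v) + _ = _
    rw [Gam_D2 hU hg y₁ hp, show (((0 : X), (0 : ℝ)) : X × ℝ) = 0 from rfl, map_zero]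
    ring

end general

open Vale.Agent.P218UA

lemma Lf_Gam {g : ST × ℝ → ℝ} {U : Set ST} (hU : IsOpen U) (hg : ContDiffOn ℝ 2 g (U ×ˢ univ))
    (y₁ : ℝ) {p : ST} (hp : p ∈ U) {P : ST → ℝ} (hP : ContDiffAt ℝ 2 P p) (e₁ e₂ : E3) :
    Lf e₁ e₂ (fun q => Gam g y₁ (q, P q)) p
      = (∫ y in P p..y₁, Lf e₁ e₂ (fun q => g (q, y)) p) - g (p, P p) * Lf e₁ e₂ P p
        + 2 * (fderiv ℝ P p (sp e₁) * fderiv ℝ g (p, P p) (sp e₁, 0)
          + fderiv ℝ P p (sp e₂) * fderiv ℝ g (p, P p) (sp e₂, 0))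
        + fderiv ℝ g (p, P p) (0, 1) * Gf e₁ e₂ P p := by
  have h := (Gam_comp hU hg y₁ hp hP).2
  have c1 : ∀ v : ST × ℝ, Continuous fun y => fderiv ℝ g (p, y) v := fun v =>
    cont_slice (h := fun a => fderiv ℝ g a v) (fun a ha =>
      (diff2 (cd_g hU hg ha)).continuousAt.clm_apply continuousAt_const) hp
  have c2 : ∀ v : ST × ℝ, Continuous fun y => D2 g (p, y) v := fun v =>
    cont_slice (h := fun a => D2 g a v) (fun a ha =>
      ((((cd_g hU hg ha).fderiv_right (m := 1) (by norm_num)).fderiv_right (m := 0)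
        (by norm_num)).continuousAt.clm_apply continuousAt_const).clm_apply continuousAt_const) hp
  have e : ∀ y, Lf e₁ e₂ (fun q => g (q, y)) p = fderiv ℝ g (p, y) (tv, 0)
      - (D2 g (p, y) (sp e₁, 0) + D2 g (p, y) (sp e₂, 0)) := fun y => by
    have h1 := slice_fst (cd_g hU hg (a := (p, y)) hp)
    rw [Lf, (h1 _).1, (h1 _).2, (h1 _).2]
  simp only [e]
  rw [intervalIntegral.integral_sub ((c1 _).intervalIntegrable _ _)
    (((c2 _).fun_add (c2 _)).intervalIntegrable _ _),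
    intervalIntegral.integral_add ((c2 _).intervalIntegrable _ _) ((c2 _).intervalIntegrable _ _),
    Lf, (h _).1, (h _).2, (h _).2, Lf, Gf]
  ring

end Vale.Agent.P218UO
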