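import Vale.Agent.P218UO.Bar

/-! Integrals over a moving open set of levels: bounds, measurability, semicontinuity. -/

open MeasureTheory Set Filter Topology Metric

namespace Vale.Agent.P218UO

lemma shape {S : Set ℝ} (hS : IsOpen S) (hup : ∀ y ∈ S, ∀ y', y ≤ y' → y' ∈ S) {y₀ : ℝ}
    (h : ∀ y ∈ S, y₀ < y) : S = ∅ ∨ ∃ u, y₀ ≤ u ∧ S = Ioi u := by
  rcases S.eq_empty_or_nonempty with h0 | h0
  · exact Or.inl h0
  have hb : BddBelow S := ⟨y₀, fun y hy => (h y hy).le⟩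
  refine Or.inr ⟨sInf S, le_csInf h0 fun y hy => (h y hy).le,
    Set.ext fun y => ⟨fun hy => ?_, fun hy => ?_⟩⟩
  · have h3 : ∀ᶠ s in 𝓝[<] y, s ∈ S := mem_nhdsWithin_of_mem_nhds (hS.mem_nhds hy)
    obtain ⟨y', h1, h2⟩ := (h3.and self_mem_nhdsWithin).exists
    exact (csInf_le hb h1).trans_lt h2
  · obtain ⟨y', h1, h2⟩ := exists_lt_of_csInf_lt h0 hy
    exact hup y' h1 y h2.le

lemma int_Ioi {h : ℝ → ℝ} {y₁ : ℝ} (h1 : ∀ y, y₁ ≤ y → h y = 0) (u : ℝ) :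
    ∫ y in Ioi u, h y = ∫ y in u..y₁, h y := by
  rcases le_total u y₁ with hu | hu
  · rw [intervalIntegral.integral_of_le hu]
    exact setIntegral_eq_of_subset_of_forall_sdiff_eq_zero measurableSet_Ioi Ioc_subset_Ioi_self
      fun y hy => h1 y (not_lt.1 fun h2 => hy.2 ⟨hy.1, h2.le⟩)
  · rw [intervalIntegral.integral_of_ge hu,
      setIntegral_eq_zero_of_forall_eq_zero (t := Ioi u) fun y hy => h1 y (hu.trans (le_of_lt hy)),
      setIntegral_eq_zero_of_forall_eq_zero (t := Ioc y₁ u) fun y hy => h1 y hy.1.le, neg_zero]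

lemma intOn_lev {h : ℝ → ℝ} (hc : Continuous h) {y₀ y₁ : ℝ} (h1 : ∀ y, y₁ ≤ y → h y = 0)
    {S : Set ℝ} (hS : MeasurableSet S) (h0 : ∀ y ∈ S, y₀ ≤ y) : IntegrableOn h S :=
  (hc.integrableOn_Icc (a := y₀) (b := y₁)).of_forall_sdiff_eq_zero hS
    fun y hy => h1 y (not_lt.1 fun h2 => hy.2 ⟨h0 y hy.1, h2.le⟩)

variable {X : Type} [NormedAddCommGroup X] {U K : Set X} {Ω : X → Set ℝ} {g : X × ℝ → ℝ}
  {y₀ y₁ : ℝ}

lemma isOpen_slice (hO : IsOpen {a : X × ℝ | a.1 ∈ U ∧ a.2 ∈ Ω a.1}) {p : X} (hp : p ∈ U) :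
    IsOpen (Ω p) := by
  simpa [hp] using hO.preimage (Continuous.prodMk_right p)

lemma meas_lev [MeasurableSpace X] [BorelSpace X] [SecondCountableTopology X]
    (hO : IsOpen {a : X × ℝ | a.1 ∈ U ∧ a.2 ∈ Ω a.1})
    (hg : ∀ a : X × ℝ, a.1 ∈ U → ContinuousAt g a) (hK : MeasurableSet K) (hKU : K ⊆ U)
    (μ : Measure X) : AEStronglyMeasurable (fun p => ∫ y in Ω p, g (p, y)) (μ.restrict K) := by
  classical
  have h1 := ContinuousOn.measurable_piecewise (f := g) (g := fun _ => (0 : ℝ))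
    (fun a ha => (hg a ha.1).continuousWithinAt) continuousOn_const hO.measurableSet
  refine (h1.stronglyMeasurable.integral_prod_right' (ν := volume)).aestronglyMeasurable.congr ?_
  filter_upwards [ae_restrict_mem hK] with p hp
  rw [← integral_indicator (isOpen_slice hO (hKU hp)).measurableSet]
  refine integral_congr_ae (Eventually.of_forall fun y => ?_)
  simp [piecewise, indicator, hKU hp]

lemma bound_lev (hg : ∀ a : X × ℝ, a.1 ∈ U → ContinuousAt g a) (hK : IsCompact K) (hKU : K ⊆ U)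
    (h1 : ∀ p ∈ K, ∀ y, y₁ ≤ y → g (p, y) = 0) : ∃ M : ℝ, ∀ p ∈ K, ∀ S : Set ℝ,
      (∀ y ∈ S, y₀ ≤ y) → ∀ y, ‖S.indicator (fun y => g (p, y)) y‖
        ≤ (Icc y₀ y₁).indicator (fun _ => M) y := by
  obtain ⟨M, hM⟩ := (hK.prod (isCompact_Icc (a := y₀) (b := y₁))).exists_bound_of_continuousOn
    fun a ha => (hg a (hKU ha.1)).continuousWithinAt
  refine ⟨max M 0, fun p hp S hS y => ?_⟩
  by_cases hy : y ∈ Icc y₀ y₁
  · rw [indicator_of_mem hy]
    exact (norm_indicator_le_norm_self _ _).trans ((hM (p, y) ⟨hp, hy⟩).trans (le_max_left _ _))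
  · rw [indicator_of_notMem hy]
    by_cases h : y ∈ S
    · rw [indicator_of_mem h, h1 p hp y (not_lt.1 fun h2 => hy ⟨hS y h, h2.le⟩), norm_zero]
    · rw [indicator_of_notMem h, norm_zero]

lemma int_box (y₀ y₁ M : ℝ) : Integrable ((Icc y₀ y₁).indicator fun _ => M) :=
  (continuous_const.integrableOn_Icc).integrable_indicator measurableSet_Icc

lemma bdd_lev (hO : IsOpen {a : X × ℝ | a.1 ∈ U ∧ a.2 ∈ Ω a.1})
    (hg : ∀ a : X × ℝ, a.1 ∈ U → ContinuousAt g a) (hK : IsCompact K) (hKU : K ⊆ U)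
    (h0 : ∀ p ∈ K, ∀ y ∈ Ω p, y₀ < y) (h1 : ∀ p ∈ K, ∀ y, y₁ ≤ y → g (p, y) = 0) :
    ∃ B : ℝ, ∀ p ∈ K, |∫ y in Ω p, g (p, y)| ≤ B := by
  obtain ⟨M, hM⟩ := bound_lev (y₀ := y₀) hg hK hKU h1
  refine ⟨∫ y, (Icc y₀ y₁).indicator (fun _ => M) y, fun p hp => ?_⟩
  rw [← integral_indicator (isOpen_slice hO (hKU hp)).measurableSet]
  exact norm_integral_le_of_norm_le (int_box _ _ _)
    (Eventually.of_forall (hM p hp _ fun y hy => (h0 p hp y hy).le))

lemma usc_lev (hO : IsOpen {a : X × ℝ | a.1 ∈ U ∧ a.2 ∈ Ω a.1})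
    (hup : ∀ p, ∀ y ∈ Ω p, ∀ y', y ≤ y' → y' ∈ Ω p)
    (hg : ∀ a : X × ℝ, a.1 ∈ U → ContinuousAt g a) (hK : IsCompact K) (hKU : K ⊆ U)
    (hg0 : ∀ p ∈ K, ∀ y, 0 ≤ g (p, y))
    (h0 : ∀ p ∈ K, ∀ y ∈ Ω p, y₀ < y) (h1 : ∀ p ∈ K, ∀ y, y₁ ≤ y → g (p, y) = 0)
    (hcl : ∀ p ∈ K, ∀ y, y₀ ≤ y → g (p, y) ≠ 0 → (∃ᶠ q in 𝓝[K] p, y ∈ Ω q) →
      ∀ y', y < y' → y' ∈ Ω p) :
    UpperSemicontinuousOn (fun p => ∫ y in Ω p, g (p, y)) K := by
  intro p hp
  obtain ⟨M, hM⟩ := bound_lev (y₀ := y₀) hg hK hKU h1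
  obtain ⟨C, hC, c1, c2, c3⟩ : ∃ C : Set ℝ, MeasurableSet C ∧ C =ᵐ[volume] Ω p ∧
      (∀ y ∈ C, y₀ ≤ y) ∧ ∀ y, (∀ y', y < y' → y' ∈ Ω p) → y ∈ C := by
    rcases shape (isOpen_slice hO (hKU hp)) (hup p) (h0 p hp) with h | ⟨u, h, h'⟩
    · exact ⟨∅, MeasurableSet.empty, h ▸ EventuallyEq.rfl, by simp,
        fun y hy => by simpa [h] using hy (y + 1) (lt_add_one y)⟩
    · exact ⟨Ici u, measurableSet_Ici, h' ▸ Ioi_ae_eq_Ici.symm, fun y hy => h.trans hy,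
        fun y hy => le_of_forall_gt_imp_ge_of_dense fun y' h2 => by
          have := hy y' h2
          rw [h'] at this
          exact le_of_lt this⟩
  have hm : ∀ q ∈ K, MeasurableSet (Ω q ∪ C) := fun q hq =>
    (isOpen_slice hO (hKU hq)).measurableSet.union hC
  have hl : ∀ q ∈ K, ∀ y ∈ Ω q ∪ C, y₀ ≤ y := fun q hq y hy =>
    hy.elim (fun h => (h0 q hq y h).le) (c2 y)
  have hc : ∀ y, Tendsto (fun q => g (q, y)) (𝓝[K] p) (𝓝 (g (p, y))) := fun y =>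
    (ContinuousAt.comp (g := g) (f := fun q : X => (q, y)) (hg _ (hKU hp))
      (by fun_prop)).continuousWithinAt
  have key := tendsto_integral_filter_of_dominated_convergence (l := 𝓝[K] p) (μ := volume)
    (F := fun q => (Ω q ∪ C).indicator fun y => g (q, y)) (f := C.indicator fun y => g (p, y))
    ((Icc y₀ y₁).indicator fun _ => M)
    (eventually_mem_nhdsWithin.mono fun q hq =>
      (cont_slice hg (hKU hq)).aestronglyMeasurable.indicator (hm q hq))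
    (eventually_mem_nhdsWithin.mono fun q hq => Eventually.of_forall (hM q hq _ (hl q hq)))
    (int_box _ _ _) (Eventually.of_forall fun y => by
      by_cases hy : y ∈ C
      · simpa only [indicator_of_mem hy, indicator_of_mem (mem_union_right _ hy)] using hc y
      rw [indicator_of_notMem hy]
      by_cases h2 : g (p, y) = 0
      · exact squeeze_zero_norm (fun q => norm_indicator_le_norm_self _ _)
          (by simpa [h2] using (hc y).norm)
      have h3 : ∀ᶠ q in 𝓝[K] p, y ∉ Ω q := by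
        by_cases h4 : y₀ ≤ y
        · exact not_frequently.1 fun h5 => hy (c3 y (hcl p hp y h4 h2 h5))
        · exact eventually_mem_nhdsWithin.mono fun q hq h5 => h4 (h0 q hq y h5).le
      refine tendsto_const_nhds.congr' ?_
      filter_upwards [h3] with q hq
      rw [indicator_of_notMem fun h5 => h5.elim hq hy])
  rw [integral_indicator hC, setIntegral_congr_set c1] at key
  intro b hb
  filter_upwards [key.eventually (gt_mem_nhds hb), eventually_mem_nhdsWithin] with q h2 hq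
  refine lt_of_le_of_lt ?_ h2
  rw [integral_indicator (hm q hq)]
  exact setIntegral_mono_set (intOn_lev (cont_slice hg (hKU hq)) (h1 q hq) (hm q hq) (hl q hq))
    (Eventually.of_forall (hg0 q hq)) subset_union_left.eventuallyLE

lemma Gam_le (hO : IsOpen {a : X × ℝ | a.1 ∈ U ∧ a.2 ∈ Ω a.1})
    (hg : ∀ a : X × ℝ, a.1 ∈ U → ContinuousAt g a) {p : X} (hp : p ∈ U) (hg0 : ∀ y, 0 ≤ g (p, y))
    (h0 : ∀ y ∈ Ω p, y₀ < y) (h1 : ∀ y, y₁ ≤ y → g (p, y) = 0) {s : ℝ}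
    (hs : ∀ y, s < y → y ∈ Ω p) : Gam g y₁ (p, s) ≤ ∫ y in Ω p, g (p, y) := by
  rw [Gam, ← int_Ioi h1]
  exact setIntegral_mono_set (intOn_lev (cont_slice hg hp) h1 (isOpen_slice hO hp).measurableSet
    fun y hy => (h0 y hy).le) (Eventually.of_forall hg0)
    (show Ioi s ⊆ Ω p from hs).eventuallyLE

end Vale.Agent.P218UO
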