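import Vale.Agent.P218UO.Sep
import Vale.Agent.P218UO.Lev
import Vale.Agent.P218UV.Visc

/-! The differential inequality for the separation functional. -/

open MeasureTheory Set Filter Topology Metric
open scoped RealInnerProductSpace ContDiff

namespace Vale.Agent.P218UO

open Vale.Agent.P218UA Vale.Agent.P218UL Vale.Agent.P218UG Vale.Agent.P218UM
open Vale.Agent.P218UV (trk)

variable {w : ℝ → E3 → ℝ} {I J : Set ℝ} {A σ θ δ c₁ y₀ y₁ : ℝ} {γ : ℝ → E3 → ℝ → ℝ}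

lemma heat_zero {F : ST → ℝ} {p : ST} (hn : ‖Nu w p‖ = 1) (hF : F =ᶠ[𝓝 p] fun _ => 0) :
    heat w (fun t x => F (t, x)) p.1 p.2 = 0 := by
  obtain ⟨e₁, e₂, h⟩ := exists_fr hn
  rw [heat_eq h (contDiffAt_const.congr_of_eventuallyEq hF), Lf, hF.fderiv_eq, D2_congr hF,
    D2_congr hF, D2_const, D2_const]
  simp

/-- the weight as a function on space-time and levels -/
def gw (γ : ℝ → E3 → ℝ → ℝ) (a : ST × ℝ) : ℝ := γ a.1.1 a.1.2 a.2

/-- the heat operator of the weight -/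
noncomputable def hw' (w : ℝ → E3 → ℝ) (γ : ℝ → E3 → ℝ → ℝ) (a : ST × ℝ) : ℝ :=
  heat w (fun t x => γ t x a.2) a.1.1 a.1.2

lemma cd_gw (hγ : ContDiffOn ℝ 2 (fun p : ℝ × E3 × ℝ => γ p.1 p.2.1 p.2.2) (J ×ˢ univ)) :
    ContDiffOn ℝ 2 (gw γ) ({p : ST | p.1 ∈ J} ×ˢ univ) :=
  hγ.comp (f := fun a : ST × ℝ => (a.1.1, a.1.2, a.2)) (by fun_prop) fun _ ha => ⟨ha.1, trivial⟩

lemma cont_hw (hw : IsFlow w I) (hJ : IsOpen J) (hJI : J ⊆ I)
    (hg : ContDiffOn ℝ 2 (gw γ) ({p : ST | p.1 ∈ J} ×ˢ univ)) {a : ST × ℝ} (ha : a.1.1 ∈ J) :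
    ContinuousAt (hw' w γ) a := by
  have hU : IsOpen {p : ST | p.1 ∈ J} := hJ.preimage continuous_fst
  have h1 : ContinuousAt (fun b : ST × ℝ => deriv (fun s => γ s b.1.2 b.2) b.1.1) a := by
    refine ((diff2 (cd_g hU hg ha)).continuousAt.clm_apply
      (continuousAt_const (y := ((tv, 0) : ST × ℝ)))).congr ?_
    filter_upwards [continuousAt_fst.eventually (hU.mem_nhds ha)] with b hb
    have h2 := cd_g hU hg (a := (b.1, b.2)) hb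
    exact (slice_fst h2 tv).1.symm.trans (deriv_time (diff1 (ContDiffAt.comp b.1 (g := gw γ)
      (f := fun q : ST => (q, b.2)) h2 (by fun_prop)))).symm
  have h2 : ContinuousAt (fun b : ST × ℝ => hs (fun x => γ b.1.1 x b.2) b.1.2) a :=
    ContinuousAt.comp (g := fun z : (ℝ × ℝ) × E3 => fderiv ℝ (gradient fun x => γ z.1.1 x z.1.2) z.2)
      (f := fun b : ST × ℝ => ((b.1.1, b.2), b.1.2))
      (contDiffAt_hess (f := fun (s : ℝ × ℝ) (x : E3) => γ s.1 x s.2) (m := 0) (n := 2)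
        (by norm_num) (ContDiffAt.comp ((a.1.1, a.2), a.1.2) (g := gw γ)
          (f := fun z : (ℝ × ℝ) × E3 => (((z.1.1, z.2), z.1.2) : ST × ℝ)) (cd_g hU hg ha)
          (by fun_prop))).continuousAt (by fun_prop)
  have h3 : ContinuousAt (fun b : ST × ℝ => Nu w b.1) a :=
    ContinuousAt.comp (g := Nu w) (cd_Nu hw (hJI ha)).continuousAt continuousAt_fst
  exact h1.sub (P218UV.continuous_trT.continuousAt.comp (h3.prodMk h2))

lemma hw_eq (hJ : IsOpen J) (hg : ContDiffOn ℝ 2 (gw γ) ({p : ST | p.1 ∈ J} ×ˢ univ)) {p : ST}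
    (hp : p.1 ∈ J) {e₁ e₂ : E3} (hF : Fr (Nu w p) e₁ e₂) (y : ℝ) :
    Lf e₁ e₂ (fun q => gw γ (q, y)) p = hw' w γ (p, y) :=
  (heat_eq hF (ContDiffAt.comp p (g := gw γ) (f := fun q : ST => (q, y))
    (cd_g (hJ.preimage continuous_fst) hg (a := (p, y)) hp) (by fun_prop))).symm

lemma heat_const (hJ : IsOpen J) (hg : ContDiffOn ℝ 2 (gw γ) ({p : ST | p.1 ∈ J} ×ˢ univ)) {p : ST}
    (hp : p.1 ∈ J) (hn : ‖Nu w p‖ = 1) (s : ℝ) :
    ContDiffAt ℝ 2 (fun q => Gam (gw γ) y₁ (q, s)) p ∧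
      heat w (fun t x => Gam (gw γ) y₁ ((t, x), s)) p.1 p.2 = ∫ y in s..y₁, hw' w γ (p, y) := by
  have hU : IsOpen {p : ST | p.1 ∈ J} := hJ.preimage continuous_fst
  have h1 := (Gam_comp hU hg y₁ hp (P := fun _ => s) contDiffAt_const).1
  obtain ⟨e₁, e₂, hF⟩ := exists_fr hn
  refine ⟨h1, (heat_eq hF h1).trans ?_⟩
  rw [Lf_Gam hU hg y₁ hp contDiffAt_const]
  simp only [hw_eq hJ hg hp hF]
  simp [Lf, Gf, D2_const]

lemma heat_bar (hJ : IsOpen J) (hg : ContDiffOn ℝ 2 (gw γ) ({p : ST | p.1 ∈ J} ×ˢ univ)) {p : ST}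
    (hp : p.1 ∈ J) (hn : ‖Nu w p‖ = 1) (hc : 0 < c₁) {D u q : ℝ} {P : ST → ℝ}
    (hP : Bar w I A σ θ c₁ D p u P) (h0 : 0 ≤ γ p.1 p.2 u) (hq : 0 ≤ q)
    (h1 : ‖gradient (fun x => γ p.1 x u) p.2‖ ^ 2 ≤ γ p.1 p.2 u * q)
    (h2 : deriv (γ p.1 p.2) u - c₁ / 2 * γ p.1 p.2 u ≤ Real.exp (2 * u) * q) :
    heat w (fun t x => Gam (gw γ) y₁ ((t, x), P (t, x))) p.1 p.2
      ≤ (∫ y in u..y₁, hw' w γ (p, y)) + (2 / c₁ + D) * q := by
  have hU : IsOpen {p : ST | p.1 ∈ J} := hJ.preimage continuous_fst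
  obtain ⟨e₁, e₂, hF⟩ := exists_fr hn
  have hc2 := cd_g hU hg (a := (p, u)) hp
  have e1 : ∀ e, fderiv ℝ (gw γ) (p, u) (sp e, 0) = ⟪e, gradient (fun x => γ p.1 x u) p.2⟫ := by
    intro e
    exact (slice_fst hc2 _).1.symm.trans ((inner_grad_space (diff1 (ContDiffAt.comp p (g := gw γ)
      (f := fun q : ST => (q, u)) hc2 (by fun_prop))) e).symm.trans (real_inner_comm _ _))
  have e2 : fderiv ℝ (gw γ) (p, u) (0, 1) = deriv (γ p.1 p.2) u :=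
    (HasFDerivAt.comp_hasDerivAt u (l := gw γ) (f := fun s : ℝ => ((p, s) : ST × ℝ))
      (diff1 hc2).hasFDerivAt ((hasDerivAt_const u p).prodMk (hasDerivAt_id u))).deriv.symm
  refine (heat_eq hF (Gam_comp hU hg y₁ hp hP.cd).1).trans_le ?_
  rw [Lf_Gam hU hg y₁ hp hP.cd, hP.eq, e1, e1, e2]
  simp only [hw_eq hJ hg hp hF]
  obtain ⟨h3, h4⟩ := hP.sup e₁ e₂ hF
  have h5 := hF.normSq (gradient (fun x => γ p.1 x u) p.2)
  change _ - γ p.1 p.2 u * _ + _ + _ ≤ _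
  rw [Gf] at h3 h4 ⊢
  generalize fderiv ℝ P p (sp e₁) = a₁ at *
  generalize fderiv ℝ P p (sp e₂) = a₂ at *
  generalize ⟪e₁, gradient (fun x => γ p.1 x u) p.2⟫ = b₁ at *
  generalize ⟪e₂, gradient (fun x => γ p.1 x u) p.2⟫ = b₂ at *
  have h6 : b₁ ^ 2 + b₂ ^ 2 ≤ γ p.1 p.2 u * q := by
    linarith [sq_nonneg ⟪Nu w p, gradient (fun x => γ p.1 x u) p.2⟫]
  generalize γ p.1 p.2 u = g₀ at *
  have hG : 0 ≤ a₁ ^ 2 + a₂ ^ 2 := by positivity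
  have h7 : 2 * (a₁ * b₁ + a₂ * b₂) ≤ c₁ / 2 * g₀ * (a₁ ^ 2 + a₂ ^ 2) + 2 / c₁ * q := by
    refine (abs_le_of_sq_le_sq' ?_ (by positivity)).2
    have h8 : c₁ / 2 * g₀ * (a₁ ^ 2 + a₂ ^ 2) * (2 / c₁ * q) = (a₁ ^ 2 + a₂ ^ 2) * (g₀ * q) := by
      field_simp
    linarith [mul_le_mul_of_nonneg_left h6 hG, sq_nonneg (a₁ * b₂ - a₂ * b₁),
      sq_nonneg (c₁ / 2 * g₀ * (a₁ ^ 2 + a₂ ^ 2) - 2 / c₁ * q)]
  linarith [mul_le_mul_of_nonneg_left h3 h0, mul_le_mul_of_nonneg_right h2 hG,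
    mul_le_mul_of_nonneg_right h4 hq]

lemma int_psi (hC : Calc) (hw : IsFlow w I) {ψ F : ST → ℝ} (hψ : Continuous ψ)
    (hc : HasCompactSupport ψ) (hI : tsupport ψ ⊆ I ×ˢ univ)
    (hm : AEStronglyMeasurable F ((stm w I).restrict (trk w ψ))) {B : ℝ}
    (hB : ∀ p ∈ trk w ψ, |F p| ≤ B) : Integrable (fun p => ψ p * F p) (stm w I) := by
  obtain ⟨M, hM⟩ := hψ.bounded_above_of_compact_support hc
  exact (P218UV.int_trk hC hw (fun p hp => by rw [image_eq_zero_of_notMem_tsupport hp, zero_mul])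
    ((P218UV.intOn_trk hC hw hc hI hm hB).bdd_mul hψ.aestronglyMeasurable (ae_of_all _ hM))).1

/-- [CORE] -/
theorem core (hC : Calc) (hL : Cell) (hD : CylDensStmt) (hQS : QSStmt) : CoreStmt := by
  intro A hA
  obtain ⟨c₁, hc0, hc1, H⟩ := hQS A hA
  obtain ⟨σ₀, hσ₀, H⟩ := H (c₁ / 10) (by positivity)
  set σ := min σ₀ (1 / 10 ^ 5 / A ^ 2) with hσdef
  have hσ : 0 < σ := lt_min hσ₀ (by positivity)
  have hσA : σ * A ^ 2 ≤ 1 / 10 ^ 5 := (le_div_iff₀ (by positivity)).1 (min_le_right _ _)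
  have hσ1 : σ ≤ 1 := by nlinarith [mul_le_mul_of_nonneg_left (show 1 ≤ A ^ 2 by nlinarith) hσ.le]
  obtain ⟨δ, hδ, H⟩ := H σ hσ (min_le_left _ _)
  clear_value σ
  set D := 204800 * A ^ 2 * Real.exp (2 * (20 * A - 13 + 3)) with hDdef
  have hθ : 0 < c₁ / 10 := by positivity
  have hθ1 : c₁ / 10 ≤ 1 / 10 := by linarith
  refine ⟨c₁ / 10, σ, δ, c₁ / 2, 2 / c₁ + D, hθ, hθ1, hσ, hσ1, hδ, by positivity, by linarith,
    by positivity, fun w I hw => ⟨isOpen_Om hC hw.toIsFlow hσ,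
      fun K hK hI => lower hD hw hσ hσ1 hθ hθ1 hK hI, ?_⟩⟩
  intro J γ ψ q y₀ y₁ hJ hJI hγ hγ0 hγ1 hψ hψc hψJ hψ0 hqm ⟨Bq, hq⟩ hyp
  have hqs : QS w I A c₁ (c₁ / 10) σ δ := H w I hw
  have hg := cd_gw hγ
  set U : Set ST := {p : ST | p.1 ∈ J} with hUdef
  have hU : IsOpen U := hJ.preimage continuous_fst
  set Ω : ST → Set ℝ := fun p => Om w I A σ (c₁ / 10) p.1 p.2 with hΩ
  set K := trk w fun p : ℝ × E3 => ψ p.1 p.2 with hKdef
  have hψI := hψJ.trans (prod_mono hJI Subset.rfl)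
  have hK : IsCompact K := P218UV.isCompact_trk hw.toIsFlow hψc hψI
  have hKU : K ⊆ U := fun p hp => (hψJ hp.1).1
  have hO : IsOpen {a : ST × ℝ | a.1 ∈ U ∧ a.2 ∈ Ω a.1} := by
    have h1 := (hU.preimage (continuous_fst (Y := ℝ))).inter
      ((isOpen_Om (A := A) (θ := c₁ / 10) hC hw.toIsFlow hσ).preimage
        (by fun_prop : Continuous fun a : ST × ℝ => (a.1.1, a.1.2, a.2)))
    convert h1 using 1
    exact Set.ext fun a => ⟨fun h => ⟨h.1, hJI h.1, h.2⟩, fun h => ⟨h.1, h.2.2⟩⟩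
  have hup : ∀ p, ∀ y ∈ Ω p, ∀ y', y ≤ y' → y' ∈ Ω p := fun p y hy y' h => Om_up hy h
  have hn : ∀ p ∈ K, ‖Nu w p‖ = 1 := fun p hp => norm_Nu hw.toIsFlow (hJI (hKU hp)) hp.2
  have gc : ∀ a : ST × ℝ, a.1 ∈ U → ContinuousAt (gw γ) a := fun a ha => (cd_g hU hg ha).continuousAt
  have hc : ∀ a : ST × ℝ, a.1 ∈ U → ContinuousAt (hw' w γ) a := fun a ha =>
    cont_hw hw.toIsFlow hJ hJI hg ha
  have g0 : ∀ p ∈ K, ∀ y, 0 ≤ gw γ (p, y) := fun p hp y => hγ0 _ (hKU hp) _ _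
  have g1 : ∀ p ∈ K, ∀ y, y₁ ≤ y → gw γ (p, y) = 0 := fun p hp y hy => hγ1 _ (hKU hp) _ _ hy
  have h1 : ∀ p ∈ K, ∀ y, y₁ ≤ y → hw' w γ (p, y) = 0 := fun p hp y hy =>
    heat_zero (F := fun q => gw γ (q, y)) (hn p hp)
      ((hU.eventually_mem (hKU hp)).mono fun q hq => hγ1 _ hq _ _ hy)
  have lo : ∀ p ∈ K, ∀ y ∈ Ω p, y₀ < y := fun p hp => (hyp p hp.1 hp.2).1
  obtain ⟨B₁, hB₁⟩ := bdd_lev hO gc hK hKU lo g1
  obtain ⟨B₂, hB₂⟩ := bdd_lev hO hc hK hKU lo h1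
  have hm := meas_lev hO hc hK.measurableSet hKU (stm w I)
  have hC0 : 0 ≤ 2 / c₁ + D := by positivity
  have main := P218UV.visc_int hC hw.toIsFlow (G := fun p => ∫ y in Ω p, gw γ (p, y))
    (F := fun p => (∫ y in Ω p, hw' w γ (p, y)) + (2 / c₁ + D) * q p) hψ hψc hψI hψ0
    (hm.add (hqm.const_mul _).aestronglyMeasurable) (B := max B₁ (B₂ + (2 / c₁ + D) * Bq))
    (fun p hp => ⟨(hB₁ p hp).trans (le_max_left _ _), ((abs_add_le _ _).trans (add_le_add (hB₂ p hp)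
      (by rw [abs_of_nonneg (mul_nonneg hC0 (hq p).1)]
          exact mul_le_mul_of_nonneg_left (hq p).2 hC0))).trans (le_max_right _ _)⟩)
    (usc_lev hO hup gc hK hKU g0 lo g1 fun p hp y hy h2 h3 y' h4 => ?_) fun p hp => ?_
  · exact ⟨main.1, int_psi hC hw.toIsFlow hψ.continuous hψc hψI hm hB₂, main.2.2⟩
  · refine cl hC hL hw hqs hσ hσ1 hθ hθ1 le_rfl hp.2
      (((hyp p hp.1 hp.2).2 y hy).1 (subset_closure ⟨hKU hp, h2⟩)) ?_ h4
    have h5 : Tendsto (fun q : ST => ((q, y) : ST × ℝ)) (𝓝[K] p) (𝓝 (p, y)) :=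
      (Continuous.tendsto' (by fun_prop) _ _ rfl).mono_left nhdsWithin_le_nhds
    exact h5.frequently ((h3.and_eventually eventually_mem_nhdsWithin).mono
      fun q h6 => ⟨h6.2.2, h6.1⟩)
  have hCq : 0 ≤ (2 / c₁ + D) * q p := mul_nonneg hC0 (hq p).1
  rcases shape (isOpen_slice hO (hKU hp)) (hup p) (lo p hp) with h | ⟨u, hu, h⟩
  · refine ⟨fun _ => 0, contDiffAt_const, by simp [h], ?_, ?_⟩
    · filter_upwards [eventually_mem_nhdsWithin] with q hq'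
      exact setIntegral_nonneg_of_ae (Eventually.of_forall (g0 q hq'))
    · rw [heat_zero (F := fun _ => 0) (hn p hp) EventuallyEq.rfl]
      simpa [h] using hCq
  by_cases hcl : (p.1, p.2, u) ∈ closure {p' : ℝ × E3 × ℝ | p'.1 ∈ J ∧ γ p'.1 p'.2.1 p'.2.2 ≠ 0}
  · obtain ⟨h2, h3, h4⟩ := (hyp p hp.1 hp.2).2 u hu
    obtain ⟨P, hP⟩ := exists_bar hC hL hD hw hqs hσ hσA hθ le_rfl hc1 hp.2 (h2 hcl) h
    refine ⟨fun q => Gam (gw γ) y₁ (q, P q), (Gam_comp hU hg y₁ (hKU hp) hP.cd).1, ?_, ?_, ?_⟩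
    · simp only [h, hP.eq, int_Ioi (g1 p hp), Gam]
    · filter_upwards [eventually_mem_nhdsWithin, mem_nhdsWithin_of_mem_nhds hP.above] with q e1 e2
      exact Gam_le hO gc (hKU e1) (g0 q e1) (lo q e1) (g1 q e1) (e2 e1.2)
    · simp only [h, int_Ioi (h1 p hp)]
      exact heat_bar hJ hg (hKU hp) (hn p hp) hc0 hP (g0 p hp u) (hq p).1 h3 h4
  · have h2 : ∀ᶠ a : ST × ℝ in 𝓝 (p, u), gw γ a = 0 := by
      have h3 : Tendsto (fun a : ST × ℝ => (a.1.1, a.1.2, a.2)) (𝓝 (p, u)) (𝓝 (p.1, p.2, u)) :=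
        Continuous.tendsto' (by fun_prop) _ _ rfl
      filter_upwards [h3.eventually (not_frequently.1 (mem_closure_iff_frequently.not.1 hcl)),
        (continuousAt_fst (p := (p, u))).eventually (hU.mem_nhds (hKU hp))] with a e1 e2
      exact not_not.1 fun e3 => e1 ⟨e2, e3⟩
    obtain ⟨ε, hε, h3⟩ := Metric.eventually_nhds_iff_ball.1 h2
    rw [← ball_prod_same] at h3
    have h4 : ∀ y ∈ Ioi u \ Ioi (u + ε / 2), ∀ᶠ q in 𝓝 p, gw γ (q, y) = 0 := fun y hy => by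
      filter_upwards [ball_mem_nhds p hε] with q hq'
      refine h3 (q, y) ⟨hq', mem_ball_iff_norm.2 (abs_lt.2 ⟨?_, ?_⟩)⟩
      · linarith [mem_Ioi.1 hy.1]
      · linarith [not_lt.1 (mt mem_Ioi.2 hy.2)]
    have h5 : Ioi (u + ε / 2) ⊆ Ioi u := Ioi_subset_Ioi (by linarith)
    obtain ⟨h6, h7⟩ := heat_const (y₁ := y₁) hJ hg (hKU hp) (hn p hp) (u + ε / 2)
    refine ⟨fun q => Gam (gw γ) y₁ (q, u + ε / 2), h6, ?_, ?_, ?_⟩
    · simp only [h, Gam]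
      rw [← int_Ioi (g1 p hp), setIntegral_eq_of_subset_of_forall_sdiff_eq_zero measurableSet_Ioi h5
        fun y hy => (h4 y hy).self_of_nhds]
    · have h8 : ∀ᶠ q in 𝓝 p, u + ε / 2 ∈ Ω q :=
        ((Continuous.prodMk_left (u + ε / 2)).continuousAt.eventually (hO.mem_nhds
          (x := (p, u + ε / 2)) ⟨hKU hp, by rw [h]; exact lt_add_of_pos_right u (half_pos hε)⟩)).mono
          fun q hq' => hq'.2
      filter_upwards [eventually_mem_nhdsWithin, mem_nhdsWithin_of_mem_nhds h8] with q e1 e2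
      exact Gam_le hO gc (hKU e1) (g0 q e1) (lo q e1) (g1 q e1) fun y hy => hup q _ e2 y hy.le
    · simp only [h]
      rw [h7, ← int_Ioi (h1 p hp), setIntegral_eq_of_subset_of_forall_sdiff_eq_zero
        (f := fun y => hw' w γ (p, y)) measurableSet_Ioi h5
        fun y hy => heat_zero (F := fun q => gw γ (q, y)) (hn p hp) (h4 y hy)]
      linarith

end Vale.Agent.P218UO
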