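import Vale.Agent.P218UO.Op
import Vale.Agent.P218UG.FlowB
import Mathlib.Analysis.ODE.Gronwall

/-! The nearest point map of a flow and its first consequences for Lipschitz graphs. -/

open MeasureTheory Set Filter Topology Metric
open scoped RealInnerProductSpace ContDiff

namespace Vale.Agent.P218UO

open Vale.Agent.P218UA Vale.Agent.P218UL Vale.Agent.P218UG
open Vale.Agent.P218.H63 (lap inner_gradient contDiff_gradient hess_symm)

lemma hs_grad_zero {W : E3 → ℝ} (hW : ContDiff ℝ 2 W) {x : E3}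
    (h : ∀ᶠ y in 𝓝 x, ‖gradient W y‖ = 1) : fderiv ℝ (gradient W) x (gradient W x) = 0 := by
  have h1 := ((contDiff_gradient (n := 1) hW (by norm_num)).differentiable
    (by norm_num) x).hasFDerivAt
  have h2 := h1.inner ℝ h1
  have h3 : HasFDerivAt (fun y => ⟪gradient W y, gradient W y⟫) (0 : E3 →L[ℝ] ℝ) x := by
    refine (hasFDerivAt_const 1 x).congr_of_eventuallyEq ?_
    filter_upwards [h] with y hy
    rw [real_inner_self_eq_norm_sq, hy]; norm_num
  refine ext_inner_right ℝ fun v => ?_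
  have h4 := congrArg (fun L : E3 →L[ℝ] ℝ => L v) (h2.unique h3)
  simp only [ContinuousLinearMap.comp_apply, fderivInnerCLM_apply, ContinuousLinearMap.prod_apply,
    zero_apply] at h4
  rw [hess_symm hW, inner_zero_left]
  rw [real_inner_comm (gradient W x)] at h4
  linarith

lemma foot_static {W : E3 → ℝ} (hW : ContDiff ℝ 2 W) {z : E3}
    (h : ∀ s ∈ Icc (0 : ℝ) 1, ∀ᶠ y in 𝓝 (z - s • (W z • gradient W z)), ‖gradient W y‖ = 1) :
    W (z - W z • gradient W z) = 0 := by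
  have hg : ContDiff ℝ 1 (gradient W) := contDiff_gradient hW (by norm_num)
  set e := W z • gradient W z with he
  have hc : ∀ s : ℝ, HasDerivAt (fun s : ℝ => z - s • e) (-e) s := fun s => by
    simpa using ((hasDerivAt_id s).smul_const e).const_sub z
  have hcc : Continuous fun s : ℝ => z - s • e := by fun_prop
  obtain ⟨K, hK⟩ := isCompact_Icc.exists_bound_of_continuousOn
    (f := fun s : ℝ => fderiv ℝ (gradient W) (z - s • e)) (s := Icc 0 1)
    ((hg.continuous_fderiv (by norm_num)).comp hcc).continuousOn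
  have h1 : ∀ s ∈ Icc (0 : ℝ) 1, gradient W (z - s • e) - gradient W z = 0 := by
    refine eq_zero_of_abs_deriv_le_mul_abs_self_of_eq_zero_right
      (f' := fun s => fderiv ℝ (gradient W) (z - s • e) (-e)) (K := |W z| * K)
      ((hg.continuous.comp hcc).sub continuous_const).continuousOn (fun s _ => ?_) (by simp)
      fun s hs => ?_
    · exact (((hg.differentiable (by norm_num) _).hasFDerivAt.comp_hasDerivAt s
        (hc s)).sub_const _).hasDerivWithinAt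
    · have hs' := Ico_subset_Icc_self hs
      have e1 : fderiv ℝ (gradient W) (z - s • e) (-e)
          = W z • fderiv ℝ (gradient W) (z - s • e) (gradient W (z - s • e) - gradient W z) := by
        rw [map_sub, hs_grad_zero hW (h s hs'), he, map_neg, map_smul, zero_sub, smul_neg]
      rw [e1, norm_smul, mul_assoc, Real.norm_eq_abs]
      exact mul_le_mul_of_nonneg_left ((ContinuousLinearMap.le_opNorm _ _).trans
        (mul_le_mul_of_nonneg_right (hK s hs') (norm_nonneg _))) (abs_nonneg _)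
  have hn : ‖gradient W z‖ = 1 := by simpa using (h 0 ⟨le_rfl, zero_le_one⟩).self_of_nhds
  have h2 : ∀ s ∈ Icc (0 : ℝ) 1, W (z - s • e) + s * W z = W (z - (0 : ℝ) • e) + 0 * W z := by
    refine constant_of_has_deriv_right_zero (f := fun s : ℝ => W (z - s • e) + s * W z)
      ((hW.continuous.comp hcc).add (by fun_prop)).continuousOn fun s hs => ?_
    have h3 := ((hW.differentiable (by norm_num) _).hasFDerivAt.comp_hasDerivAt s (hc s)).add
      ((hasDerivAt_id s).mul_const (W z))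
    rw [← inner_gradient, sub_eq_zero.1 (h1 s (Ico_subset_Icc_self hs)), he, inner_neg_right,
      real_inner_smul_right, real_inner_self_eq_norm_sq, hn] at h3
    exact (h3.congr_deriv (by simp)).hasDerivWithinAt
  simpa using h2 1 ⟨zero_le_one, le_rfl⟩

variable {w : ℝ → E3 → ℝ} {I : Set ℝ}

/-- the defining function on space-time -/
def Wt (w : ℝ → E3 → ℝ) (q : ST) : ℝ := w q.1 q.2

/-- the normal field on space-time -/
noncomputable def Nu (w : ℝ → E3 → ℝ) (q : ST) : E3 := gradient (w q.1) q.2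

/-- the nearest point map -/
noncomputable def ft (w : ℝ → E3 → ℝ) (q : ST) : E3 := q.2 - Wt w q • Nu w q

lemma cd_Wt (hw : IsFlow w I) {p : ST} (hp : p.1 ∈ I) : ContDiffAt ℝ 2 (Wt w) p :=
  (flow_cd hw hp p.2).of_le (by norm_cast)

lemma cd_Nu (hw : IsFlow w I) {p : ST} (hp : p.1 ∈ I) : ContDiffAt ℝ 2 (Nu w) p :=
  (flow_grad hw hp p.2).of_le (by norm_cast)

lemma cd_ft (hw : IsFlow w I) {p : ST} (hp : p.1 ∈ I) : ContDiffAt ℝ 2 (ft w) p :=
  contDiffAt_snd.sub ((cd_Wt hw hp).smul (cd_Nu hw hp))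

lemma ft_self {p : ST} (h : w p.1 p.2 = 0) : ft w p = p.2 := by
  simp [ft, Wt, h]

lemma norm_Nu (hw : IsFlow w I) {p : ST} (hp : p.1 ∈ I) (h : w p.1 p.2 = 0) : ‖Nu w p‖ = 1 :=
  (hw.eik p.1 hp p.2 h).self_of_nhds

lemma ev_foot (hw : IsFlow w I) {p : ST} (hp : p.1 ∈ I) (h : w p.1 p.2 = 0) :
    ∀ᶠ q in 𝓝 p, w q.1 (ft w q) = 0 := by
  have h1 : ∀ᶠ q : ST in 𝓝 p, q.1 ∈ I := continuousAt_fst.eventually (hw.isOpen.mem_nhds hp)
  have h2 : ∀ᶠ q : ST in 𝓝 p, ∀ s ∈ Icc (0 : ℝ) 1, ∀ᶠ q' : ST in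
      𝓝 (q.1, q.2 - s • (Wt w q • Nu w q)), ‖gradient (w q'.1) q'.2‖ = 1 := by
    refine isCompact_Icc.eventually_forall_of_forall_eventually fun s _ => ?_
    have h3 : ContinuousAt (fun z : ST × ℝ => ((z.1.1, z.1.2 - z.2 • (Wt w z.1 • Nu w z.1)) : ST))
        (p, s) := by
      have h4 : ContinuousAt (fun z : ST × ℝ => Wt w z.1 • Nu w z.1) (p, s) :=
        ContinuousAt.comp (g := fun q => Wt w q • Nu w q) (f := Prod.fst)
          ((cd_Wt hw hp).smul (cd_Nu hw hp)).continuousAt continuousAt_fst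
      exact continuousAt_fst.fst.prodMk (continuousAt_fst.snd.sub (continuousAt_snd.smul h4))
    refine h3.eventually (p := fun a : ST => ∀ᶠ q' : ST in 𝓝 a, ‖gradient (w q'.1) q'.2‖ = 1) ?_
    simpa [Wt, h] using (hw.eik p.1 hp p.2 h).eventually_nhds
  filter_upwards [h1, h2] with q hq hq'
  refine foot_static (surf_cd2 (flow_slice hw hq)) fun s hs => ?_
  exact (Continuous.prodMk_right q.1).continuousAt.eventually (hq' s hs)

lemma fderiv_Wt_sp (hw : IsFlow w I) {p : ST} (hp : p.1 ∈ I) (v : E3) :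
    fderiv ℝ (Wt w) p (sp v) = ⟪Nu w p, v⟫ :=
  (inner_grad_space (diff1 (cd_Wt hw hp)) v).symm

lemma fderiv_Wt_tv (hw : IsFlow w I) {p : ST} (hp : p.1 ∈ I) (h : w p.1 p.2 = 0) :
    fderiv ℝ (Wt w) p tv = lap (w p.1) p.2 :=
  (deriv_time (diff1 (cd_Wt hw hp))).symm.trans (hw.eqn p.1 hp p.2 h)

lemma fderiv_ft (hw : IsFlow w I) {p : ST} (hp : p.1 ∈ I) (h : w p.1 p.2 = 0) (v : ST) :
    fderiv ℝ (ft w) p v = v.2 - fderiv ℝ (Wt w) p v • Nu w p := by
  have h1 : HasFDerivAt (ft w) _ p := hasFDerivAt_snd.sub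
    ((diff1 (cd_Wt hw hp)).hasFDerivAt.smul (diff1 (cd_Nu hw hp)).hasFDerivAt)
  rw [h1.fderiv]
  simp [Wt, h]

lemma D2_ft (hw : IsFlow w I) {p : ST} (hp : p.1 ∈ I) (h : w p.1 p.2 = 0) {v : ST}
    (hv : fderiv ℝ (Wt w) p v = 0) : D2 (ft w) p v = -(D2 (Wt w) p v • Nu w p) := by
  have h1 := D2_sub (F := fun q : ST => q.2) (G := fun q => Wt w q • Nu w q) contDiffAt_snd
    ((cd_Wt hw hp).smul (cd_Nu hw hp)) v
  have h2 := D2_bilin (ContinuousLinearMap.lsmul ℝ ℝ : ℝ →L[ℝ] E3 →L[ℝ] E3) (cd_Wt hw hp)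
    (cd_Nu hw hp) v
  have h3 := D2_clm (ContinuousLinearMap.snd ℝ ℝ E3) 0 p v
  simp only [ContinuousLinearMap.lsmul_apply, hv, zero_smul, smul_zero, add_zero,
    show Wt w p = 0 from h] at h2
  simp only [zero_add, ContinuousLinearMap.coe_snd'] at h3
  rw [h2] at h1
  refine h1.trans ?_
  rw [show D2 (fun q : ST => q.2) p v = 0 from h3, zero_sub]

/-- a curve on the surface with a given tangent vector -/
lemma exists_curve (hw : IsFlow w I) {t : ℝ} (ht : t ∈ I) {x τ : E3} (h : w t x = 0)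
    (hτ : ⟪gradient (w t) x, τ⟫ = 0) : ∃ c : ℝ → E3, c 0 = x ∧ HasDerivAt c τ 0 ∧
      ∀ᶠ s in 𝓝 (0 : ℝ), w t (c s) = 0 := by
  have h1 : HasDerivAt (fun s : ℝ => ((t, x + s • τ) : ST)) (sp τ) 0 := by
    simpa using (hasDerivAt_const (0 : ℝ) t).prodMk (((hasDerivAt_id (0 : ℝ)).smul_const τ).const_add x)
  have h2 : ((t, x + (0 : ℝ) • τ) : ST) = (t, x) := by simp
  refine ⟨fun s => ft w (t, x + s • τ), by simpa using ft_self (p := (t, x)) h, ?_, ?_⟩
  · have h3 := (diff1 (cd_ft hw (p := (t, x)) ht)).hasFDerivAt.comp_hasDerivAt_of_eq 0 h1 h2.symm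
    rw [fderiv_ft hw (p := (t, x)) ht h, fderiv_Wt_sp hw (p := (t, x)) ht,
      show ⟪Nu w (t, x), τ⟫ = 0 from hτ, zero_smul, sub_zero] at h3
    exact h3
  · have h3 := h1.continuousAt
    rw [ContinuousAt, h2] at h3
    exact h3.eventually (ev_foot hw (p := (t, x)) ht h)

/-- a point of the surface at a large angle from the tangent plane destroys the graph property -/
lemma not_reg (hw : IsFlow w I) {t : ℝ} (ht : t ∈ I) {x z : E3} (h : w t x = 0) (hz : w t z = 0)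
    {θ r : ℝ} (h0 : 0 ≤ θ) (hθ : θ ≤ 1 / 10) (hr : ‖z - x‖ < r)
    (hh : 3 * θ * ‖z - x‖ < |⟪z - x, gradient (w t) x⟫|) : ¬Reg (w t) θ x r := by
  rintro ⟨n, hn, H⟩
  have hr0 : 0 < r := (norm_nonneg _).trans_lt hr
  set ν := gradient (w t) x with hν
  have hν1 : ‖ν‖ = 1 := norm_Nu hw (p := (t, x)) ht h
  have hνν : ⟪ν, ν⟫ = 1 := by rw [real_inner_self_eq_norm_sq, hν1]; norm_num
  have key : ∀ τ, ⟪ν, τ⟫ = 0 → |⟪τ, n⟫| ≤ θ * ‖τ‖ := by
    intro τ hτ
    obtain ⟨c, c0, c1, c2⟩ := exists_curve hw ht h hτ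
    have h1 := hasDerivAt_iff_tendsto_slope_zero.1 c1
    refine le_of_tendsto_of_tendsto (h1.inner tendsto_const_nhds).abs (h1.norm.const_mul θ) ?_
    have h2 : ∀ᶠ s in 𝓝 (0 : ℝ), c s ∈ ball x r :=
      c1.continuousAt.eventually (by rw [c0]; exact ball_mem_nhds x hr0)
    filter_upwards [mem_nhdsWithin_of_mem_nhds c2, mem_nhdsWithin_of_mem_nhds h2] with s h3 h4
    have h5 := H _ h4 x (mem_ball_self hr0) h3 h
    rw [zero_add, c0, real_inner_smul_left, abs_mul, norm_smul, Real.norm_eq_abs, mul_left_comm]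
    exact mul_le_mul_of_nonneg_left h5 (abs_nonneg _)
  have tan : ∀ a : E3, ⟪ν, a - ⟪a, ν⟫ • ν⟫ = 0 ∧ ‖a - ⟪a, ν⟫ • ν‖ ^ 2 = ‖a‖ ^ 2 - ⟪a, ν⟫ ^ 2 := by
    intro a
    refine ⟨by rw [inner_sub_right, real_inner_smul_right, hνν, real_inner_comm]; ring, ?_⟩
    rw [norm_sub_sq_real, real_inner_smul_right, norm_smul, hν1, Real.norm_eq_abs, mul_one, sq_abs]
    ring
  have h1 := key _ (tan n).1
  have h2 := key _ (tan (z - x)).1
  have h3 := H z (mem_ball_iff_norm.2 hr) x (mem_ball_self hr0) hz h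
  have h4 := (tan n).2
  have h5 := (tan (z - x)).2
  rw [inner_sub_left, real_inner_smul_left, real_inner_self_eq_norm_sq, real_inner_comm n ν,
    ← sq, ← h4, abs_of_nonneg (sq_nonneg _)] at h1
  rw [inner_sub_left, real_inner_smul_left, real_inner_comm n ν] at h2
  rw [hn] at h4
  set T := ‖n - ⟪n, ν⟫ • ν‖
  have hT : 0 ≤ T := norm_nonneg _
  have h6 : T ≤ θ := by nlinarith
  have h7 : 9 / 10 ≤ |⟪n, ν⟫| := by
    refine (abs_le_of_sq_le_sq' ?_ (abs_nonneg _)).2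
    rw [sq_abs]
    nlinarith
  have h8 : ‖z - x - ⟪z - x, ν⟫ • ν‖ ≤ ‖z - x‖ :=
    (abs_le_of_sq_le_sq' (by nlinarith [sq_nonneg ⟪z - x, ν⟫]) (norm_nonneg _)).2
  have h9 : |⟪z - x, ν⟫| * |⟪n, ν⟫| ≤ 2 * θ * ‖z - x‖ := by
    rw [← abs_mul]
    have := abs_sub_abs_le_abs_sub (⟪z - x, ν⟫ * ⟪n, ν⟫) ⟪z - x, n⟫
    rw [abs_sub_comm] at this
    nlinarith
  nlinarith [abs_nonneg ⟪z - x, ν⟫, norm_nonneg (z - x), mul_nonneg h0 (norm_nonneg (z - x))]

/-- at a local minimum of the distance the segment is normal -/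
lemma normal_of_min (hw : IsFlow w I) {t : ℝ} (ht : t ∈ I) {x z : E3} (hz : w t z = 0)
    (hm : ∀ᶠ z' in 𝓝 z, w t z' = 0 → ‖z - x‖ ≤ ‖z' - x‖) :
    z - x = ⟪gradient (w t) z, z - x⟫ • gradient (w t) z := by
  set ν := gradient (w t) z with hν
  have hν1 : ‖ν‖ = 1 := norm_Nu hw (p := (t, z)) ht hz
  have hνν : ⟪ν, ν⟫ = 1 := by rw [real_inner_self_eq_norm_sq, hν1]; norm_num
  have h1 : ⟪ν, z - x - ⟪ν, z - x⟫ • ν⟫ = 0 := by
    rw [inner_sub_right, real_inner_smul_right, hνν]; ring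
  obtain ⟨c, c0, c1, c2⟩ := exists_curve hw ht hz h1
  have h2 : IsLocalMin (fun s => ‖c s - x‖ ^ 2) 0 := by
    have h3 := c1.continuousAt
    rw [ContinuousAt, c0] at h3
    filter_upwards [c2, h3.eventually hm] with s h4 h5
    rw [c0]
    exact pow_le_pow_left₀ (norm_nonneg _) (h5 h4) 2
  have h3 := h2.hasDerivAt_eq_zero (c1.sub_const x).norm_sq
  rw [c0] at h3
  rw [← sub_eq_zero, ← inner_self_eq_zero (𝕜 := ℝ), inner_sub_left, real_inner_smul_left, h1]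
  simpa using h3

/-- near a point of the track the surfaces are graphs with small slope -/
lemma ev_reg (hw : IsFlow w I) {p : ST} (hp : p.1 ∈ I) (h : w p.1 p.2 = 0) {θ : ℝ} (hθ : 0 < θ) :
    ∃ ρ > 0, ∀ t, |t - p.1| < ρ → t ∈ I ∧ Reg (w t) θ p.2 ρ := by
  have h1 : ∀ᶠ q : ST in 𝓝 p, q.1 ∈ I := continuousAt_fst.eventually (hw.isOpen.mem_nhds hp)
  have h2 : ∀ᶠ q : ST in 𝓝 p, Nu w q ∈ ball (Nu w p) θ :=
    (cd_Nu hw hp).continuousAt.eventually (ball_mem_nhds _ hθ)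
  obtain ⟨ρ, hρ, H⟩ := Metric.eventually_nhds_iff_ball.1 (h1.and h2)
  have hm : ∀ t, |t - p.1| < ρ → ∀ x ∈ ball p.2 ρ, (t, x) ∈ ball p ρ := fun t ht x hx => by
    rw [← ball_prod_same]
    exact ⟨ht, hx⟩
  refine ⟨ρ, hρ, fun t ht => ?_⟩
  have htI : t ∈ I := (H _ (hm t ht _ (mem_ball_self hρ))).1
  refine ⟨htI, Nu w p, norm_Nu hw hp h, fun z hz z' hz' e e' => ?_⟩
  have hd := surf_diff (flow_slice hw htI)
  have h3 : ∀ x, HasFDerivAt (fun x => ⟪Nu w p, x⟫ - w t x)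
      (innerSL ℝ (Nu w p - gradient (w t) x)) x := fun x => by
    have h4 := (innerSL ℝ (Nu w p)).hasFDerivAt.sub (hd x).hasFDerivAt
    refine h4.congr_fderiv (ContinuousLinearMap.ext fun v => ?_)
    simp
  have h4 := (convex_ball p.2 ρ).norm_image_sub_le_of_norm_hasFDerivWithin_le
    (fun x _ => (h3 x).hasFDerivWithinAt) (C := θ) (fun x hx => by
      rw [innerSL_apply_norm, norm_sub_rev]
      exact (mem_ball_iff_norm.1 (H _ (hm t ht x hx)).2).le) hz' hz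
  rw [e, e', sub_zero, sub_zero, ← inner_sub_right, real_inner_comm] at h4
  exact h4

/-- the failure of the graph property is an open condition -/
lemma ev_not_reg (hw : IsFlow w I) {θ : ℝ} {a : ℝ × E3 × ℝ} (ha : a.1 ∈ I)
    (h : ¬Reg (w a.1) θ a.2.1 (Real.exp a.2.2)) :
    ∀ᶠ b : ℝ × E3 × ℝ in 𝓝 a, ¬Reg (w b.1) θ b.2.1 (Real.exp b.2.2) := by
  have key : ∀ᶠ b : ℝ × E3 × ℝ in 𝓝 a, ∀ n ∈ sphere (0 : E3) 1, ∃ z z' : E3,
      ‖z - b.2.1‖ < Real.exp b.2.2 ∧ ‖z' - b.2.1‖ < Real.exp b.2.2 ∧ w b.1 z = 0 ∧ w b.1 z' = 0 ∧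
        θ * ‖z - z'‖ < |⟪z - z', n⟫| := by
    refine (isCompact_sphere _ _).eventually_forall_of_forall_eventually fun n hn => ?_
    simp only [Reg, not_exists, not_and, not_forall, not_le] at h
    obtain ⟨z, hz, z', hz', e, e', hlt⟩ := h n (by simpa using hn)
    have hc : ∀ {z : E3}, w a.1 z = 0 →
        Tendsto (fun b : (ℝ × E3 × ℝ) × E3 => ft w (b.1.1, z)) (𝓝 (a, n)) (𝓝 z) ∧
        ∀ᶠ b : (ℝ × E3 × ℝ) × E3 in 𝓝 (a, n), w b.1.1 (ft w (b.1.1, z)) = 0 := by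
      intro z hz
      have h1 : Tendsto (fun b : (ℝ × E3 × ℝ) × E3 => ((b.1.1, z) : ST)) (𝓝 (a, n))
          (𝓝 (a.1, z)) := Continuous.tendsto' (by fun_prop) _ _ rfl
      have h2 := (cd_ft hw (p := (a.1, z)) ha).continuousAt
      rw [ContinuousAt, ft_self (p := (a.1, z)) hz] at h2
      exact ⟨h2.comp h1, h1.eventually (ev_foot hw (p := (a.1, z)) ha hz)⟩
    have hx : Tendsto (fun b : (ℝ × E3 × ℝ) × E3 => b.1.2.1) (𝓝 (a, n)) (𝓝 a.2.1) :=
      Continuous.tendsto' (by fun_prop) _ _ rfl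
    have hy : Tendsto (fun b : (ℝ × E3 × ℝ) × E3 => Real.exp b.1.2.2) (𝓝 (a, n))
        (𝓝 (Real.exp a.2.2)) := Continuous.tendsto' (by fun_prop) _ _ rfl
    have hn' : Tendsto (fun b : (ℝ × E3 × ℝ) × E3 => b.2) (𝓝 (a, n)) (𝓝 n) :=
      Continuous.tendsto' (by fun_prop) _ _ rfl
    filter_upwards [(hc e).2, (hc e').2,
      ((hc e).1.sub hx).norm.eventually_lt hy (mem_ball_iff_norm.1 hz),
      ((hc e').1.sub hx).norm.eventually_lt hy (mem_ball_iff_norm.1 hz'),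
      (((hc e).1.sub (hc e').1).norm.const_mul θ).eventually_lt
        (((hc e).1.sub (hc e').1).inner hn').abs hlt] with b h1 h2 h3 h4 h5
    exact ⟨_, _, h3, h4, h1, h2, h5⟩
  filter_upwards [key] with b hb
  rintro ⟨n, hn, H⟩
  obtain ⟨z, z', h1, h2, h3, h4, h5⟩ := hb n (by simpa using hn)
  exact absurd (H z (mem_ball_iff_norm.2 h1) z' (mem_ball_iff_norm.2 h2) h3 h4) (not_le.2 h5)

end Vale.Agent.P218UO
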