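import Vale.Agent.P218UO.Tbar

/-! The set of levels at which the flow is not a single sheet: openness, lower bound, and the
structure of its boundary at quiet points. -/

open MeasureTheory Set Filter Topology Metric
open scoped RealInnerProductSpace ContDiff

namespace Vale.Agent.P218UO

open Vale.Agent.P218UA Vale.Agent.P218UL Vale.Agent.P218UG Vale.Agent.P218UM

variable {w : ℝ → E3 → ℝ} {I : Set ℝ} {A σ θ δ c₁ : ℝ}

lemma ev_win (hw : IsFlow w I) {t c : ℝ} (hc : 0 ≤ c) (h : Icc (t - c) t ⊆ I) :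
    ∀ᶠ s in 𝓝 t, Icc (s - c) s ⊆ I := by
  have h1 : ∀ᶠ s in 𝓝 t, s - c ∈ I :=
    (by fun_prop : ContinuousAt (fun s : ℝ => s - c) t).eventually
      (hw.isOpen.mem_nhds (h ⟨le_rfl, by linarith⟩))
  filter_upwards [h1, hw.isOpen.mem_nhds (h ⟨by linarith, le_rfl⟩)] with s h2 h3
  exact hw.conn.out h2 h3

lemma ev_Om (hC : Calc) (hw : IsFlow w I) (hσ : 0 < σ) {a : ℝ × E3 × ℝ} (ha : a.1 ∈ I)
    (h : a.2.2 ∈ Om w I A σ θ a.1 a.2.1) :
    ∀ᶠ b : ℝ × E3 × ℝ in 𝓝 a, b.2.2 ∈ Om w I A σ θ b.1 b.2.1 := by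
  rcases h with h | ⟨y, h1, h2, h3⟩
  · exact (ev_not_reg hw ha h).mono fun b hb => Or.inl hb
  · have h4 : ContinuousAt (fun b : ℝ × E3 × ℝ => tbar w σ b.1 b.2.1 y) a :=
      ContinuousAt.comp (g := fun q : ST => tb w σ (q, y)) (f := fun b : ℝ × E3 × ℝ => (b.1, b.2.1))
        (cd_tb' hC hw hσ (p := (a.1, a.2.1)) h1).continuousAt (by fun_prop)
    filter_upwards [continuousAt_fst.eventually (ev_win hw (by positivity) h1),
      h4.eventually (lt_mem_nhds h2),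
      (continuousAt_const.add (continuousAt_const.mul (continuousAt_const.sub h4))).eventually_lt
        continuousAt_snd.snd h3] with b e1 e2 e3
    exact Or.inr ⟨y, e1, e2, e3⟩

theorem isOpen_Om (hC : Calc) (hw : IsFlow w I) (hσ : 0 < σ) :
    IsOpen {p : ℝ × E3 × ℝ | p.1 ∈ I ∧ p.2.2 ∈ Om w I A σ θ p.1 p.2.1} :=
  isOpen_iff_mem_nhds.2 fun _ ha =>
    (continuousAt_fst.eventually (hw.isOpen.mem_nhds ha.1)).and (ev_Om hC hw hσ ha.1 ha.2)

lemma reg_sub {W : E3 → ℝ} {x x' : E3} {r r' : ℝ} (h : Reg W θ x r) (hs : ball x' r' ⊆ ball x r) :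
    Reg W θ x' r' := by
  obtain ⟨n, hn, h⟩ := h
  exact ⟨n, hn, fun z hz z' hz' => h z (hs hz) z' (hs hz')⟩

theorem lower (hD : CylDensStmt) (hw : IsARFlow w I A) (hσ : 0 < σ) (hσ1 : σ ≤ 1) (hθ : 0 < θ)
    (hθ1 : θ ≤ 1 / 10) {K : Set (ℝ × E3)} (hK : IsCompact K) (hI : K ⊆ I ×ˢ univ) :
    ∃ y₀ : ℝ, ∀ p ∈ K, w p.1 p.2 = 0 → ∀ y ∈ Om w I A σ θ p.1 p.2, y₀ < y := by
  refine hK.induction_on (p := fun S => ∃ y₀ : ℝ, ∀ p ∈ S, w p.1 p.2 = 0 →
    ∀ y ∈ Om w I A σ θ p.1 p.2, y₀ < y) ⟨0, by simp⟩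
    (fun S T hST ⟨y₀, h⟩ => ⟨y₀, fun p hp => h p (hST hp)⟩)
    (fun S T ⟨a, ha⟩ ⟨b, hb⟩ => ⟨min a b, fun p hp h y hy => hp.elim
      (fun hp => (min_le_left _ _).trans_lt (ha p hp h y hy))
      fun hp => (min_le_right _ _).trans_lt (hb p hp h y hy)⟩) fun p hp => ?_
  have hpI : p.1 ∈ I := (hI hp).1
  by_cases h0 : w p.1 p.2 = 0
  swap
  · exact ⟨{q | w q.1 q.2 ≠ 0}, mem_nhdsWithin_of_mem_nhds
      ((cd_Wt hw.toIsFlow hpI).continuousAt.eventually_ne h0), 0, fun q hq h => absurd h hq⟩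
  obtain ⟨ρ, hρ, H⟩ := ev_reg hw.toIsFlow hpI h0 hθ
  refine ⟨ball p (ρ / 2), mem_nhdsWithin_of_mem_nhds (ball_mem_nhds _ (by positivity)),
    Real.log (min (ρ / 2) 1), fun q hq _ y hy => ?_⟩
  rw [← ball_prod_same] at hq
  have ht : |q.1 - p.1| < ρ / 2 := hq.1
  have hr : ∀ y', y' ≤ Real.log (min (ρ / 2) 1) → ∀ s ∈ Icc (q.1 - σ * Real.exp (2 * y')) q.1,
      s ∈ I ∧ Reg (w s) θ q.2 (Real.exp y') := by
    intro y' hy' s hs
    have h1 : Real.exp y' ≤ min (ρ / 2) 1 := (Real.le_log_iff_exp_le (by positivity)).1 hy'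
    have h2 := h1.trans (min_le_left _ _)
    have h3 := h1.trans (min_le_right _ _)
    have h4 : σ * Real.exp (2 * y') ≤ ρ / 2 := by
      rw [two_mul, Real.exp_add]
      nlinarith [Real.exp_pos y', mul_pos (Real.exp_pos y') (Real.exp_pos y')]
    have h5 := H s (by
      rw [abs_lt] at ht ⊢
      constructor <;> linarith [hs.1, hs.2])
    exact ⟨h5.1, reg_sub h5.2 (ball_subset_ball' (by linarith [mem_ball.1 hq.2]))⟩
  by_contra hn
  rcases hy with hy | ⟨y', h1, h2, h3⟩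
  · exact hy (hr y (not_lt.1 hn) q.1 ⟨by
      linarith [mul_pos hσ (Real.exp_pos (2 * y))], le_rfl⟩).2
  · have h4 := tbar_le_A hw hσ h1 q.2
    have h5 : tbar w σ q.1 q.2 y' ≤ 103 / 100 := tbar_le hσ fun s hs =>
      have h6 := hr y' (by linarith [hw.one_le, not_lt.1 hn]) s hs
      mk_le_of_reg hD (flow_slice hw.toIsFlow h6.1).smooth.continuous hθ1 (Real.exp_pos _) h6.2
    linarith

lemma quiet_win (hσ1 : σ ≤ 1) {t y y' : ℝ} {x : E3} (h : Quiet w I δ t x y)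
    (hy : y' ≤ y + 1) : Icc (t - σ * Real.exp (2 * y')) t ⊆ I := by
  obtain ⟨z, r, -, h1, -, h2, -⟩ := h
  refine (Icc_subset_Icc_left ?_).trans h2
  have h3 := (Real.exp_le_exp.2 hy).trans_lt h1
  rw [two_mul, Real.exp_add]
  nlinarith [Real.exp_pos y', mul_pos (Real.exp_pos y') (Real.exp_pos y')]

lemma quiet_mem {t y : ℝ} {x : E3} (h : Quiet w I δ t x y) : t ∈ I := by
  obtain ⟨z, r, -, -, -, h2, -⟩ := h
  exact h2 ⟨by linarith [sq_nonneg r], le_rfl⟩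

lemma ev_quiet (hL : Cell) (hw : IsARFlow w I A) {p : ST} {y : ℝ} (h : Quiet w I δ p.1 p.2 y) :
    ∀ᶠ q : ST in 𝓝 p, Quiet w I δ q.1 q.2 y := by
  obtain ⟨z, r, h1, h2, h3, h4, h5⟩ := h
  have h6 := (hL.smooth w I A hw z r p.1 ((Real.exp_pos _).trans h2) h4).continuousAt
  filter_upwards [continuousAt_fst.eventually (ev_win hw.toIsFlow (sq_nonneg r) h4),
    continuousAt_fst.eventually (h6.eventually (gt_mem_nhds h5)),
    (by fun_prop : ContinuousAt (fun q : ST => ‖z - q.2‖) p).eventually (gt_mem_nhds h1)]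
    with q e1 e2 e3
  exact ⟨z, r, e3, h2, h3, e1, e2⟩

/-- the structure of the flow at quiet points -/
def QS (w : ℝ → E3 → ℝ) (I : Set ℝ) (A c₁ θ σ δ : ℝ) : Prop :=
  ∀ (t : ℝ) (x : E3) (y : ℝ), Quiet w I δ t x y →
    (w t x = 0 → tbar w σ t x (y - (20 * A - 13)) ≤ 27 / 20 →
      (∀ r, r ≤ Real.exp (y + 1 / 2) → ¬Reg (w t) θ x r → ∃ z ∈ ball x r, w t z = 0 ∧
        c₁ * Real.exp (y + 1 / 2) ≤ |⟪z - x, gradient (w t) x⟫|) ∧
      ∀ y', y' ≤ y - (20 * A - 13) - 3 → tbar w σ t x y' ≤ 6 / 5) ∧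
    ∀ y', y - (20 * A - 13) - 5 ≤ y' → y' ≤ y - 1 → 5 / 4 ≤ tbar w σ t x y' →
      17 / 10 ≤ tbar w σ t x (y' + 2)

lemma key (hC : Calc) (hL : Cell) (hw : IsARFlow w I A) (hq : QS w I A c₁ θ σ δ) (hσ : 0 < σ)
    (hσ1 : σ ≤ 1) {p : ST} {y : ℝ} (hQ : Quiet w I δ p.1 p.2 y)
    (hf : ∃ᶠ a : ST × ℝ in 𝓝 (p, y), w a.1.1 a.1.2 = 0 ∧ a.2 ∈ Om w I A σ θ a.1.1 a.1.2) :
    (∃ z, w p.1 z = 0 ∧ ‖z - p.2‖ ≤ Real.exp y ∧ c₁ * Real.exp (y + 1 / 2) ≤ |⟪z - p.2, Nu w p⟫|) ∨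
    (∃ y', y' ≤ y + 1 ∧ 13 / 10 < tb w σ (p, y') ∧ y' + 10 * (2 * A - tb w σ (p, y')) < y) ∨
    ∃ y', y - (20 * A - 13) - 3 ≤ y' ∧ y' ≤ y - 1 ∧ 3 / 2 ≤ tb w σ (p, y') ∧
      y' + 10 * (2 * A - tb w σ (p, y')) ≤ y := by
  have hA := hw.one_le
  have hp := quiet_mem hQ
  by_contra hn
  simp only [not_or, not_exists, not_and, not_le, not_lt] at hn
  obtain ⟨n1, n2, n3⟩ := hn
  have h0 : tb w σ (p, y - (20 * A - 13)) ≤ 13 / 10 := by
    by_contra h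
    linarith [n2 _ (by linarith) (not_le.1 h)]
  have E1 : ∀ᶠ a : ST × ℝ in 𝓝 (p, y), tb w σ (a.1, y - (20 * A - 13)) < 27 / 20 :=
    (continuousAt_fst (p := (p, y))).eventually ((cd_tb' hC hw.toIsFlow hσ
      (quiet_win hσ1 hQ (by linarith))).continuousAt.eventually (gt_mem_nhds (by linarith)))
  have E2 : ∀ᶠ a : ST × ℝ in 𝓝 (p, y), ∀ v ∈ closedBall (0 : E3) (Real.exp (y + 1 / 2)),
      Wt w (a.1.1, a.1.2 + v) ≠ 0 ∨ Real.exp a.2 < ‖v‖ ∨
        |⟪v, Nu w a.1⟫| < c₁ * Real.exp (y + 1 / 2) := by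
    refine (isCompact_closedBall _ _).eventually_forall_of_forall_eventually fun v _ => ?_
    by_cases h1 : Wt w (p.1, p.2 + v) = 0
    · by_cases h2 : ‖v‖ ≤ Real.exp y
      · have h3 := n1 _ h1 (by rwa [add_sub_cancel_left])
        rw [add_sub_cancel_left] at h3
        have h4 : ContinuousAt (fun b : (ST × ℝ) × E3 => |⟪b.2, Nu w b.1.1⟫|) ((p, y), v) :=
          (continuousAt_snd.inner (ContinuousAt.comp (g := Nu w)
            (f := fun b : (ST × ℝ) × E3 => b.1.1) (cd_Nu hw.toIsFlow hp).continuousAt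
            (by fun_prop))).abs
        exact (h4.eventually (gt_mem_nhds h3)).mono fun b hb => Or.inr (Or.inr hb)
      · exact ((by fun_prop : ContinuousAt (fun b : (ST × ℝ) × E3 => Real.exp b.1.2)
          ((p, y), v)).eventually_lt continuousAt_snd.norm (not_le.1 h2)).mono
          fun b hb => Or.inr (Or.inl hb)
    · have h4 : ContinuousAt (fun b : (ST × ℝ) × E3 => Wt w (b.1.1.1, b.1.1.2 + b.2)) ((p, y), v) :=
        ContinuousAt.comp (g := Wt w)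
          (f := fun b : (ST × ℝ) × E3 => ((b.1.1.1, b.1.1.2 + b.2) : ST))
          (cd_Wt hw.toIsFlow (p := (p.1, p.2 + v)) hp).continuousAt (by fun_prop)
      exact (h4.eventually_ne h1).mono fun b hb => Or.inl hb
  have E3 : ∀ᶠ a : ST × ℝ in 𝓝 (p, y), ∀ y' ∈ Icc (y - (20 * A - 13) - 3) (y - 1),
      tb w σ (a.1, y') < 13 / 10 ∨ a.2 < y' + 10 * (2 * A - tb w σ (a.1, y')) := by
    refine isCompact_Icc.eventually_forall_of_forall_eventually fun y' hy' => ?_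
    have h4 : ContinuousAt (fun b : (ST × ℝ) × ℝ => tb w σ (b.1.1, b.2)) ((p, y), y') :=
      ContinuousAt.comp (g := tb w σ) (f := fun b : (ST × ℝ) × ℝ => ((b.1.1, b.2) : ST × ℝ))
        (cd_tb hC hw.toIsFlow hσ (a := (p, y'))
          (quiet_win hσ1 hQ (by linarith [hy'.2]))).continuousAt (by fun_prop)
    by_cases h1 : tb w σ (p, y') < 13 / 10
    · exact (h4.eventually (gt_mem_nhds h1)).mono fun b hb => Or.inl hb
    · have h2 : y < y' + 10 * (2 * A - tb w σ (p, y')) := by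
        by_cases h3 : 3 / 2 ≤ tb w σ (p, y')
        · exact n3 y' hy'.1 hy'.2 h3
        · have h5 : 17 / 10 ≤ tb w σ (p, y' + 2) := (hq _ _ _ hQ).2 y' (by linarith [hy'.1]) hy'.2
            (show 5 / 4 ≤ tb w σ (p, y') by linarith)
          linarith [n2 (y' + 2) (by linarith [hy'.2]) (by linarith)]
      exact (continuousAt_fst.snd.eventually_lt (continuousAt_snd.add
        (continuousAt_const.mul (continuousAt_const.sub h4))) h2).mono fun b hb => Or.inr hb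
  refine hf ?_
  filter_upwards [E1, E2, E3, (continuousAt_fst (p := (p, y))).eventually (ev_quiet hL hw hQ),
    (continuousAt_snd (p := (p, y))).eventually (gt_mem_nhds (by linarith : y < y + 1 / 2))]
    with a e1 e2 e3 e4 e5
  rintro ⟨h1, h2 | ⟨y', h2, h3, h4⟩⟩
  · have h3 := Real.exp_le_exp.2 e5.le
    obtain ⟨z, h4, h5, h6⟩ := ((hq _ _ _ e4).1 h1 e1.le).1 _ h3 h2
    rw [mem_ball_iff_norm] at h4
    rcases e2 (z - a.1.2) (mem_closedBall_zero_iff.2 (h4.le.trans h3)) with h7 | h7 | h7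
    · exact h7 (by simpa [Wt] using h5)
    · linarith
    · exact absurd h6 (not_le.2 h7)
  · have h5 := tbar_le_A hw hσ h2 a.1.2
    have h6 : y - (20 * A - 13) - 3 ≤ y' := by
      by_contra h
      linarith [((hq _ _ _ e4).1 h1 e1.le).2 y' (not_le.1 h).le]
    rcases e3 y' ⟨h6, by linarith⟩ with h7 | h7
    · exact absurd h3 (not_lt.2 h7.le)
    · exact absurd h4 (not_lt.2 h7.le)

lemma height_lt (hθ : 0 < θ) (hθc : θ ≤ c₁ / 10) {y d : ℝ} (hd : d ≤ Real.exp y) :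
    3 * θ * d < c₁ * Real.exp (y + 1 / 2) := by
  have h1 : Real.exp y ≤ Real.exp (y + 1 / 2) := Real.exp_le_exp.2 (by linarith)
  have h2 := Real.exp_pos y
  nlinarith [mul_le_mul_of_nonneg_left hd hθ.le, mul_le_mul_of_nonneg_left h1 hθ.le, mul_pos hθ h2]

/-- at quiet points the lower boundary of the set of levels is lower semicontinuous -/
lemma cl (hC : Calc) (hL : Cell) (hw : IsARFlow w I A) (hq : QS w I A c₁ θ σ δ) (hσ : 0 < σ)
    (hσ1 : σ ≤ 1) (hθ : 0 < θ) (hθ1 : θ ≤ 1 / 10) (hθc : θ ≤ c₁ / 10) {p : ST} {y : ℝ}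
    (hp : w p.1 p.2 = 0) (hQ : Quiet w I δ p.1 p.2 y)
    (hf : ∃ᶠ a : ST × ℝ in 𝓝 (p, y), w a.1.1 a.1.2 = 0 ∧ a.2 ∈ Om w I A σ θ a.1.1 a.1.2)
    {y' : ℝ} (hy : y < y') : y' ∈ Om w I A σ θ p.1 p.2 := by
  rcases key hC hL hw hq hσ hσ1 hQ hf with ⟨z, h1, h2, h3⟩ | ⟨s, h1, h2, h3⟩ | ⟨s, -, h1, h2, h3⟩
  · exact Or.inl (not_reg hw.toIsFlow (quiet_mem hQ) hp h1 hθ.le hθ1
      (h2.trans_lt (Real.exp_lt_exp.2 hy)) ((height_lt hθ hθc h2).trans_le h3))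
  · exact Or.inr ⟨s, quiet_win hσ1 hQ h1, h2, h3.trans hy⟩
  · exact Or.inr ⟨s, quiet_win hσ1 hQ (by linarith), lt_of_lt_of_le (by norm_num) h2,
      h3.trans_lt hy⟩

end Vale.Agent.P218UO
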