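import Vale.Agent.P218UL.Alg
import Vale.Agent.P218.H63.Geom
import Vale.Agent.P267.H734.ParInt

/-! The heat operator as a second order operator on space-time; chain and product rules. -/

open MeasureTheory Set Filter Topology Metric
open scoped RealInnerProductSpace ContDiff

namespace Vale.Agent.P218UO

open Vale.Agent.P218UA Vale.Agent.P218UL
open Vale.Agent.P218.H63 (inner_hess inner_gradient contDiff_gradient)

section general

variable {X Y : Type} [NormedAddCommGroup X] [NormedSpace ℝ X] [NormedAddCommGroup Y]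
  [NormedSpace ℝ Y]

/-- the second derivative in the direction `v` -/
noncomputable def D2 {Z : Type} [NormedAddCommGroup Z] [NormedSpace ℝ Z] (F : X → Z) (p v : X) :
    Z := fderiv ℝ (fderiv ℝ F) p v v

lemma diff1 {F : X → Y} {p : X} (h : ContDiffAt ℝ 2 F p) : DifferentiableAt ℝ F p :=
  h.differentiableAt (by norm_num)

lemma diff2 {F : X → Y} {p : X} (h : ContDiffAt ℝ 2 F p) : DifferentiableAt ℝ (fderiv ℝ F) p :=
  (h.fderiv_right (m := 1) (by norm_num)).differentiableAt (by norm_num)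

lemma ev_diff {F : X → Y} {p : X} (h : ContDiffAt ℝ 2 F p) :
    ∀ᶠ q in 𝓝 p, DifferentiableAt ℝ F q :=
  (h.eventually (by simp)).mono fun _ hq => diff1 hq

lemma D2_congr {F G : X → Y} {p : X} (h : F =ᶠ[𝓝 p] G) (v : X) : D2 F p v = D2 G p v := by
  rw [D2, D2, h.fderiv.fderiv_eq]

lemma D2_comp {Z : Type} [NormedAddCommGroup Z] [NormedSpace ℝ Z] {G : Y → Z} {Φ : X → Y} {p : X}
    (hG : ContDiffAt ℝ 2 G (Φ p)) (hΦ : ContDiffAt ℝ 2 Φ p) (v : X) :
    D2 (fun q => G (Φ q)) p v = D2 G (Φ p) (fderiv ℝ Φ p v) + fderiv ℝ G (Φ p) (D2 Φ p v) := by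
  have e : fderiv ℝ (fun q => G (Φ q)) =ᶠ[𝓝 p] fun q => (fderiv ℝ G (Φ q)).comp (fderiv ℝ Φ q) := by
    filter_upwards [ev_diff hΦ, hΦ.continuousAt.eventually (ev_diff hG)] with q h1 h2
    exact fderiv_comp q h2 h1
  have h1 : HasFDerivAt (fun q => fderiv ℝ G (Φ q))
      ((fderiv ℝ (fderiv ℝ G) (Φ p)).comp (fderiv ℝ Φ p)) p :=
    (diff2 hG).hasFDerivAt.comp p (diff1 hΦ).hasFDerivAt
  have h2 := h1.clm_comp (diff2 hΦ).hasFDerivAt
  rw [D2, e.fderiv_eq, h2.fderiv]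
  simp [D2, add_comm]

lemma D2_add {F G : X → Y} {p : X} (hF : ContDiffAt ℝ 2 F p) (hG : ContDiffAt ℝ 2 G p) (v : X) :
    D2 (fun q => F q + G q) p v = D2 F p v + D2 G p v := by
  have e : fderiv ℝ (fun q => F q + G q) =ᶠ[𝓝 p] fun q => fderiv ℝ F q + fderiv ℝ G q := by
    filter_upwards [ev_diff hF, ev_diff hG] with q h1 h2
    exact fderiv_fun_add h1 h2
  rw [D2, e.fderiv_eq, fderiv_fun_add (diff2 hF) (diff2 hG)]
  rfl

lemma D2_sub {F G : X → Y} {p : X} (hF : ContDiffAt ℝ 2 F p) (hG : ContDiffAt ℝ 2 G p) (v : X) :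
    D2 (fun q => F q - G q) p v = D2 F p v - D2 G p v := by
  have e : fderiv ℝ (fun q => F q - G q) =ᶠ[𝓝 p] fun q => fderiv ℝ F q - fderiv ℝ G q := by
    filter_upwards [ev_diff hF, ev_diff hG] with q h1 h2
    exact fderiv_fun_sub h1 h2
  rw [D2, e.fderiv_eq, fderiv_fun_sub (diff2 hF) (diff2 hG)]
  rfl

lemma D2_const (c : Y) (p v : X) : D2 (fun _ : X => c) p v = 0 := by
  simp [D2]

lemma D2_clm (L : X →L[ℝ] Y) (c : Y) (p v : X) : D2 (fun q => c + L q) p v = 0 := by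
  have e : fderiv ℝ (fun q => c + L q) = fun _ => L := by
    ext1 q; rw [fderiv_const_add, L.fderiv]
  simp [D2, e]

lemma D2_bilin {A B C : Type} [NormedAddCommGroup A] [NormedSpace ℝ A] [NormedAddCommGroup B]
    [NormedSpace ℝ B] [NormedAddCommGroup C] [NormedSpace ℝ C] (m : A →L[ℝ] B →L[ℝ] C)
    {F : X → A} {G : X → B} {p : X} (hF : ContDiffAt ℝ 2 F p) (hG : ContDiffAt ℝ 2 G p) (v : X) :
    D2 (fun q => m (F q) (G q)) p v = m (D2 F p v) (G p)
      + (2 : ℝ) • m (fderiv ℝ F p v) (fderiv ℝ G p v) + m (F p) (D2 G p v) := by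
  have hm : ∀ {F : X → A} {G : X → B} {q : X}, DifferentiableAt ℝ F q → DifferentiableAt ℝ G q →
      fderiv ℝ (fun q => m (F q) (G q)) q v
        = m (fderiv ℝ F q v) (G q) + m (F q) (fderiv ℝ G q v) := by
    intro F G q h1 h2
    have h3 : HasFDerivAt (fun q => m (F q) (G q)) _ q :=
      (m.hasFDerivAt.comp q h1.hasFDerivAt).clm_apply h2.hasFDerivAt
    rw [h3.fderiv]
    simp [add_comm]
  have hc : ContDiffAt ℝ 2 (fun q => m (F q) (G q)) p := (m.contDiff.contDiffAt.comp p hF).clm_apply hG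
  have ev : ∀ {Z : Type} [NormedAddCommGroup Z] [NormedSpace ℝ Z] {H : X → Z},
      ContDiffAt ℝ 2 H p → DifferentiableAt ℝ (fun q => fderiv ℝ H q v) p ∧
      fderiv ℝ (fun q => fderiv ℝ H q v) p v = D2 H p v := by
    intro Z _ _ H hH
    have := (diff2 hH).hasFDerivAt.clm_apply (hasFDerivAt_const v p)
    exact ⟨this.differentiableAt, by rw [this.fderiv]; simp [D2]⟩
  have e : (fun q => fderiv ℝ (fun q => m (F q) (G q)) q v) =ᶠ[𝓝 p]
      fun q => m (fderiv ℝ F q v) (G q) + m (F q) (fderiv ℝ G q v) := by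
    filter_upwards [ev_diff hF, ev_diff hG] with q h1 h2
    exact hm h1 h2
  have d1 : DifferentiableAt ℝ (fun q => m (fderiv ℝ F q v) (G q)) p :=
    (m.differentiableAt.comp p (ev hF).1).clm_apply (diff1 hG)
  have d2 : DifferentiableAt ℝ (fun q => m (F q) (fderiv ℝ G q v)) p :=
    (m.differentiableAt.comp p (diff1 hF)).clm_apply (ev hG).1
  rw [← (ev hc).2, e.fderiv_eq, fderiv_fun_add d1 d2, add_apply,
    hm (ev hF).1 (diff1 hG), hm (diff1 hF) (ev hG).1, (ev hF).2, (ev hG).2, two_smul]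
  abel

lemma D2_mul {F G : X → ℝ} {p : X} (hF : ContDiffAt ℝ 2 F p) (hG : ContDiffAt ℝ 2 G p) (v : X) :
    D2 (fun q => F q * G q) p v = D2 F p v * G p
      + 2 * (fderiv ℝ F p v * fderiv ℝ G p v) + F p * D2 G p v :=
  D2_bilin (ContinuousLinearMap.mul ℝ ℝ) hF hG v

lemma D2_inner {F G : X → E3} {p : X} (hF : ContDiffAt ℝ 2 F p) (hG : ContDiffAt ℝ 2 G p) (v : X) :
    D2 (fun q => ⟪F q, G q⟫) p v = ⟪D2 F p v, G p⟫
      + 2 * ⟪fderiv ℝ F p v, fderiv ℝ G p v⟫ + ⟪F p, D2 G p v⟫ :=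
  D2_bilin (innerSL ℝ) hF hG v

lemma D2_log {F : X → ℝ} {p : X} (hF : ContDiffAt ℝ 2 F p) (h0 : F p ≠ 0) (v : X) :
    D2 (fun q => Real.log (F q)) p v = D2 F p v / F p - (fderiv ℝ F p v / F p) ^ 2 := by
  have hl : ContDiffAt ℝ 2 Real.log (F p) := Real.contDiffAt_log.2 h0
  rw [D2_comp hl hF]
  have e1 : ∀ {y : ℝ}, y ≠ 0 → ∀ a : ℝ, fderiv ℝ Real.log y a = a * y⁻¹ := by
    intro y hy a
    rw [(Real.hasDerivAt_log hy).hasFDerivAt.fderiv]; simp
  have e2 : ∀ a : ℝ, D2 Real.log (F p) a = -(a / F p) ^ 2 := by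
    intro a
    have h1 := (diff2 hl).hasFDerivAt.clm_apply (hasFDerivAt_const a (F p))
    have h2 : (fun y => fderiv ℝ Real.log y a) =ᶠ[𝓝 (F p)] fun y => a * y⁻¹ := by
      filter_upwards [isOpen_ne.mem_nhds h0] with y hy
      exact e1 hy a
    have h3 := ((hasDerivAt_inv h0).const_mul a).hasFDerivAt.congr_of_eventuallyEq h2
    have h4 : fderiv ℝ (fderiv ℝ Real.log) (F p) a a = a * (a * -(F p ^ 2)⁻¹) := by
      have := congrArg (fun L : ℝ →L[ℝ] ℝ => L a) (h1.unique h3)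
      simpa only [add_apply, ContinuousLinearMap.comp_apply, zero_apply, map_zero, zero_add,
        ContinuousLinearMap.flip_apply, ContinuousLinearMap.toSpanSingleton_apply,
        smul_eq_mul] using this
    rw [D2, h4]
    field_simp
  rw [e1 h0, e2]
  ring

lemma fderiv_log' {F : X → ℝ} {p : X} (hF : DifferentiableAt ℝ F p) (h0 : F p ≠ 0) (v : X) :
    fderiv ℝ (fun q => Real.log (F q)) p v = fderiv ℝ F p v / F p := by
  rw [fderiv.log hF h0]
  simp [div_eq_inv_mul]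

/-- parametric integrals over the unit interval -/
lemma parInt {f : X × ℝ → ℝ} {W : Set (X × ℝ)} (hW : IsOpen W) (hf : ContDiffOn ℝ 2 f W) {p : X}
    (hp : ∀ τ ∈ Icc (0 : ℝ) 1, (p, τ) ∈ W) :
    ContDiffAt ℝ 2 (fun q => ∫ τ in (0 : ℝ)..1, f (q, τ)) p ∧
      (∀ v, fderiv ℝ (fun q => ∫ τ in (0 : ℝ)..1, f (q, τ)) p v
        = ∫ τ in (0 : ℝ)..1, fderiv ℝ f (p, τ) (v, 0)) ∧
      ∀ v, D2 (fun q => ∫ τ in (0 : ℝ)..1, f (q, τ)) p v
        = ∫ τ in (0 : ℝ)..1, D2 f (p, τ) (v, 0) := by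
  set U : Set X := interior {q | ∀ τ ∈ Icc (0 : ℝ) 1, (q, τ) ∈ W} with hU
  have hpU : p ∈ U := by
    rw [hU, mem_interior_iff_mem_nhds]
    obtain ⟨C, hC⟩ := P267.H734.exists_bound_near hW hf.continuousOn hp
    exact hC.mono fun q hq τ hτ => (hq τ hτ).1
  have hUW : ∀ q ∈ U, ∀ τ ∈ Icc (0 : ℝ) 1, (q, τ) ∈ W := fun q hq => interior_subset hq
  have hf1 : ContDiffOn ℝ 1 f W := hf.of_le (by norm_num)
  have hc := (P267.H734.contDiffOn_integral_nat hW isOpen_interior hUW 2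
    (f := f) (by exact_mod_cast hf)).contDiffAt (isOpen_interior.mem_nhds hpU)
  have hc' : ContDiffAt ℝ 2 (fun q => ∫ τ in (0 : ℝ)..1, f (q, τ)) p := by exact_mod_cast hc
  have key : ∀ {g : X × ℝ → ℝ}, ContDiffOn ℝ 1 g W → ∀ q ∈ U, ∀ v,
      fderiv ℝ (fun q => ∫ τ in (0 : ℝ)..1, g (q, τ)) q v
        = ∫ τ in (0 : ℝ)..1, fderiv ℝ g (q, τ) (v, 0) := by
    intro g hg q hq v
    rw [(P267.H734.hasFDerivAt_integral hW hg (hUW q hq)).fderiv,
      ContinuousLinearMap.intervalIntegral_apply]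
    · rfl
    · exact P267.H734.intervalIntegrable_section
        (f := fun z => (fderiv ℝ g z).comp (ContinuousLinearMap.inl ℝ X ℝ))
        ((hg.continuousOn_fderiv_of_isOpen hW le_rfl).clm_comp continuousOn_const) (hUW q hq)
  refine ⟨hc', key hf1 p hpU, fun v => ?_⟩
  have hg : ContDiffOn ℝ 1 (fun z => fderiv ℝ f z (v, 0)) W :=
    (hf.fderiv_of_isOpen hW (by norm_num)).clm_apply contDiffOn_const
  have h1 := (diff2 hc').hasFDerivAt.clm_apply (hasFDerivAt_const v p)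
  have e : (fun q => fderiv ℝ (fun q => ∫ τ in (0 : ℝ)..1, f (q, τ)) q v) =ᶠ[𝓝 p]
      fun q => ∫ τ in (0 : ℝ)..1, fderiv ℝ f (q, τ) (v, 0) := by
    filter_upwards [isOpen_interior.mem_nhds hpU] with q hq
    exact key hf1 q hq v
  have h2 : D2 (fun q => ∫ τ in (0 : ℝ)..1, f (q, τ)) p v
      = fderiv ℝ (fun q => fderiv ℝ (fun q => ∫ τ in (0 : ℝ)..1, f (q, τ)) q v) p v := by
    rw [h1.fderiv]; simp [D2]
  rw [h2, e.fderiv_eq, key hg p hpU v]
  refine intervalIntegral.integral_congr fun τ hτ => ?_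
  rw [uIcc_of_le zero_le_one] at hτ
  have h3 := (diff2 (hf.contDiffAt (hW.mem_nhds (hp τ hτ)))).hasFDerivAt.clm_apply
    (hasFDerivAt_const ((v, 0) : X × ℝ) (p, τ))
  simp only [h3.fderiv]
  simp [D2]

end general

/-- space-time -/
abbrev ST := ℝ × E3

/-- a spatial vector as a vector in space-time -/
noncomputable abbrev sp (v : E3) : ST := (0, v)

/-- the unit time vector -/
noncomputable abbrev tv : ST := (1, 0)

/-- the heat operator in an orthonormal frame of the tangent plane -/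
noncomputable def Lf (e₁ e₂ : E3) (F : ST → ℝ) (p : ST) : ℝ :=
  fderiv ℝ F p tv - (D2 F p (sp e₁) + D2 F p (sp e₂))

/-- the square of the tangential gradient -/
noncomputable def Gf (e₁ e₂ : E3) (F : ST → ℝ) (p : ST) : ℝ :=
  fderiv ℝ F p (sp e₁) ^ 2 + fderiv ℝ F p (sp e₂) ^ 2

lemma deriv_time {F : ST → ℝ} {p : ST} (hF : DifferentiableAt ℝ F p) :
    deriv (fun s => F (s, p.2)) p.1 = fderiv ℝ F p tv := by
  have h := hF.hasFDerivAt.comp_hasDerivAt p.1
    ((hasDerivAt_id p.1).prodMk (hasDerivAt_const p.1 p.2))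
  exact h.deriv

lemma inner_grad_space {F : ST → ℝ} {p : ST} (hF : DifferentiableAt ℝ F p) (v : E3) :
    ⟪gradient (fun x => F (p.1, x)) p.2, v⟫ = fderiv ℝ F p (sp v) := by
  have h : HasFDerivAt (fun x => F (p.1, x)) _ p.2 :=
    hF.hasFDerivAt.comp p.2 (hasFDerivAt_prodMk_right p.1 p.2)
  rw [inner_gradient, h.fderiv]
  rfl

lemma inner_hs {f : E3 → ℝ} {x : E3} (hf : ContDiffAt ℝ 2 f x) (a b : E3) :
    ⟪hs f x a, b⟫ = fderiv ℝ (fderiv ℝ f) x a b := by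
  have h1 : HasFDerivAt (gradient f) _ x :=
    (InnerProductSpace.toDual ℝ E3).symm.toContinuousLinearEquiv.hasFDerivAt.comp x
      (diff2 hf).hasFDerivAt
  rw [hs, h1.fderiv]
  simp

lemma hs_space {F : ST → ℝ} {p : ST} (hF : ContDiffAt ℝ 2 F p) (v : E3) :
    ⟪v, hs (fun x => F (p.1, x)) p.2 v⟫ = D2 F p (sp v) := by
  have hΦ : ContDiffAt ℝ 2 (fun x : E3 => ((p.1, x) : ST)) p.2 :=
    contDiffAt_const.prodMk contDiffAt_id
  have hc : ContDiffAt ℝ 2 (fun x => F (p.1, x)) p.2 := ContDiffAt.comp p.2 hF hΦ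
  have e : (fun x : E3 => ((p.1, x) : ST))
      = fun x => ((p.1, 0) : ST) + ContinuousLinearMap.inr ℝ ℝ E3 x := by
    ext x <;> simp
  have h := D2_comp (G := F) (Φ := fun x : E3 => ((p.1, x) : ST)) (p := p.2) hF hΦ v
  rw [real_inner_comm, inner_hs hc]
  change D2 (fun x => F (p.1, x)) p.2 v = _
  rw [h, (hasFDerivAt_prodMk_right p.1 p.2).fderiv, e, D2_clm]
  simp

lemma trT_frame {n e₁ e₂ : E3} (h : Fr n e₁ e₂) (B : E3 →L[ℝ] E3) :
    trT n B = ⟪e₁, B e₁⟫ + ⟪e₂, B e₂⟫ := by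
  rw [trT, h.trace, real_inner_comm n]
  ring

lemma heat_eq {w : ℝ → E3 → ℝ} {F : ST → ℝ} {p : ST} {e₁ e₂ : E3}
    (h : Fr (gradient (w p.1) p.2) e₁ e₂) (hF : ContDiffAt ℝ 2 F p) :
    heat w (fun t x => F (t, x)) p.1 p.2 = Lf e₁ e₂ F p := by
  rw [heat, trT_frame h, hs_space hF, hs_space hF, deriv_time (diff1 hF), Lf]

/-- the sum over the projected standard basis is the sum over a frame -/
lemma sum_D2 {n e₁ e₂ : E3} (h : Fr n e₁ e₂) (B : ST →L[ℝ] ST →L[ℝ] ℝ) :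
    ∑ i : Fin 3, B (sp (gT n (bs i))) (sp (gT n (bs i))) = B (sp e₁) (sp e₁) + B (sp e₂) (sp e₂) := by
  have e : ∀ i, sp (gT n (bs i)) = e₁ i • sp e₁ + e₂ i • sp e₂ := by
    intro i
    have h1 := h.expand (bs i)
    rw [real_inner_comm (bs i) e₁, real_inner_comm (bs i) e₂, inner_bs, inner_bs] at h1
    refine Prod.ext (by simp) ?_
    simp only [gT, Prod.snd_add, Prod.smul_snd]
    rw [sub_eq_iff_eq_add]
    exact h1
  have h11 := h.i11
  have h22 := h.i22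
  have h12 := h.o12
  rw [inner3] at h11 h22 h12
  simp only [e, map_add, map_smul, add_apply, smul_apply,
    smul_eq_mul, Fin.sum_univ_three]
  linear_combination B (sp e₁) (sp e₁) * h11 + B (sp e₂) (sp e₂) * h22
    + (B (sp e₁) (sp e₂) + B (sp e₂) (sp e₁)) * h12

end Vale.Agent.P218UO
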