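import Vale.Agent.P218UO.Foot
import Vale.Agent.P218UG.Beta
import Vale.Agent.P218UM.RegMass
import Mathlib.Analysis.Calculus.DerivativeTest

/-! The averaged mass ratio: smoothness and bounds for its derivatives. -/

open MeasureTheory Set Filter Topology Metric
open scoped RealInnerProductSpace ContDiff

namespace Vale.Agent.P218UO

open Vale.Agent.P218UA Vale.Agent.P218UL Vale.Agent.P218UG Vale.Agent.P218UM

lemma D2_nonneg_of_min {g : ℝ → ℝ} (hg : ContDiffAt ℝ 2 g 0) (h : IsLocalMin g 0) :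
    0 ≤ D2 g 0 1 := by
  have e : deriv (deriv g) 0 = D2 g 0 1 := by
    have h1 := (diff2 hg).hasFDerivAt.clm_apply (hasFDerivAt_const (1 : ℝ) (0 : ℝ))
    change fderiv ℝ (fun s => fderiv ℝ g s 1) 0 1 = _
    rw [h1.fderiv]
    simp [D2]
  by_contra hn
  have h1 := isLocalMax_of_deriv_deriv_neg (e ▸ not_le.1 hn) h.deriv_eq_zero hg.continuousAt
  have h2 : g =ᶠ[𝓝 0] fun _ => g 0 := by
    filter_upwards [h, h1] with s a b using le_antisymm b a
  rw [D2_congr h2, D2_const] at hn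
  exact hn le_rfl

lemma D2_ge {X : Type} [NormedAddCommGroup X] [NormedSpace ℝ X] {F : X → ℝ} {p v : X}
    (hF : ContDiffAt ℝ 2 F p) {K : ℝ}
    (h : ∀ᶠ s in 𝓝 (0 : ℝ), -(K * s ^ 2) ≤ F (p + s • v) + F (p + s • -v) - 2 * F p) :
    -K ≤ D2 F p v := by
  have a : ∀ u : X, ContDiffAt ℝ 2 (fun s : ℝ => F (p + s • u)) 0 ∧
      D2 (fun s : ℝ => F (p + s • u)) 0 1 = D2 F p u := by
    intro u
    have h1 : ContDiffAt ℝ 2 (fun s : ℝ => p + s • u) 0 := by fun_prop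
    have h2 : ContDiffAt ℝ 2 F (p + (0 : ℝ) • u) := by simpa using hF
    refine ⟨ContDiffAt.comp 0 (g := F) h2 h1, ?_⟩
    have h3 := D2_clm (ContinuousLinearMap.toSpanSingleton ℝ u) p 0 1
    have h4 : HasDerivAt (fun s : ℝ => p + s • u) u 0 := by
      simpa using ((hasDerivAt_id (0 : ℝ)).smul_const u).const_add p
    rw [D2_comp (Φ := fun s : ℝ => p + s • u) h2 h1, show D2 (fun s : ℝ => p + s • u) 0 1 = 0 from h3, h4.hasFDerivAt.fderiv]
    simp
  have b : D2 (fun s : ℝ => K * s * s) 0 1 = 2 * K := by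
    have h1 : HasDerivAt (fun s : ℝ => K * s) K 0 := by simpa using (hasDerivAt_id (0 : ℝ)).const_mul K
    rw [D2_mul (F := fun s : ℝ => K * s) (G := fun s : ℝ => s) (by fun_prop) (by fun_prop),
      h1.hasFDerivAt.fderiv]
    simp
  have c := D2_nonneg_of_min (g := fun s => F (p + s • v) + F (p + s • -v) + K * s * s)
    (((a v).1.add (a (-v)).1).add (by fun_prop)) (by
      filter_upwards [h] with s hs
      simp only [zero_smul, add_zero, mul_zero]
      linarith)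
  rw [D2_add ((a v).1.add (a (-v)).1) (by fun_prop), D2_add (a v).1 (a (-v)).1, (a v).2, (a (-v)).2,
    b] at c
  have d : D2 F p (-v) = D2 F p v := by simp [D2]
  linarith

lemma kk_second (z v : E3) : 2 * kk z - kk (z + v) - kk (z - v) ≤ 8 * ‖v‖ ^ 2 := by
  unfold kk
  rw [norm_add_sq_real, norm_sub_sq_real]
  set m₀ := max (1 - ‖z‖ ^ 2) 0 with h₀
  set m := max (1 - ‖z‖ ^ 2 - ‖v‖ ^ 2) 0 with h
  set u := max (1 - (‖z‖ ^ 2 + 2 * ⟪z, v⟫ + ‖v‖ ^ 2)) 0 with hu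
  set u' := max (1 - (‖z‖ ^ 2 - 2 * ⟪z, v⟫ + ‖v‖ ^ 2)) 0 with hu'
  have a1 : 0 ≤ u := le_max_right _ _
  have a2 : 0 ≤ u' := le_max_right _ _
  have a3 : 0 ≤ m := le_max_right _ _
  have a4 : m ≤ (u + u') / 2 := max_le (by
    linarith [le_max_left (1 - (‖z‖ ^ 2 + 2 * ⟪z, v⟫ + ‖v‖ ^ 2)) 0,
      le_max_left (1 - (‖z‖ ^ 2 - 2 * ⟪z, v⟫ + ‖v‖ ^ 2)) 0]) (by positivity)
  have a5 : m ^ 3 ≤ ((u + u') / 2) ^ 3 := pow_le_pow_left₀ a3 a4 3
  have a6 : ((u + u') / 2) ^ 3 ≤ (u ^ 3 + u' ^ 3) / 2 := by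
    nlinarith [mul_nonneg (add_nonneg a1 a2) (sq_nonneg (u - u'))]
  have a7 : m ≤ m₀ := max_le_max (by nlinarith [sq_nonneg ‖v‖]) le_rfl
  have a8 : m₀ ≤ 1 := max_le (by nlinarith [sq_nonneg ‖z‖]) zero_le_one
  have a9 : m₀ ≤ m + ‖v‖ ^ 2 := max_le (by linarith [le_max_left (1 - ‖z‖ ^ 2 - ‖v‖ ^ 2) 0])
    (by positivity)
  have b1 : m₀ ^ 2 + m₀ * m + m ^ 2 ≤ 3 := by nlinarith
  have b2 : m₀ ^ 3 - m ^ 3 ≤ 3 * ‖v‖ ^ 2 := by
    nlinarith [mul_le_mul_of_nonneg_left b1 (sub_nonneg.2 a7)]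
  have b3 : 2 * m₀ ^ 3 - u ^ 3 - u' ^ 3 ≤ 6 * ‖v‖ ^ 2 := by linarith
  have b4 : 0 ≤ 4 / Real.pi := by positivity
  nlinarith [mul_le_mul_of_nonneg_left b3 b4, four_div_pi_le, sq_nonneg ‖v‖]

lemma mk_second {μ : Measure E3} {A : ℝ} (h : AR μ A) (hA : 0 ≤ A) (x v : E3) {r : ℝ}
    (hr : 0 < r) : 2 * mk μ x r - mk μ (x + v) r - mk μ (x + -v) r ≤ 8 * A / r ^ 2 * ‖v‖ ^ 2 := by
  have := h.locFin
  have i := fun x => integrable_kk μ x hr
  have h1 : ∫ y, (2 * kk (r⁻¹ • (y - x)) - kk (r⁻¹ • (y - (x + -v))) - kk (r⁻¹ • (y - (x + v)))) ∂μ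
      ≤ ∫ y, (closedBall x r).indicator (fun _ => 8 * ‖r⁻¹ • v‖ ^ 2) y ∂μ := by
    refine integral_mono ((((i x).const_mul 2).sub (i _)).sub (i _))
      ((integrableOn_const (isCompact_closedBall x r).measure_lt_top.ne).integrable_indicator
        measurableSet_closedBall) fun y => ?_
    by_cases hy : y ∈ closedBall x r
    · have h2 := kk_second (r⁻¹ • (y - x)) (r⁻¹ • v)
      rw [← smul_add, ← smul_sub] at h2
      simp only [indicator_of_mem hy]
      rwa [show y - (x + -v) = y - x + v by abel, show y - (x + v) = y - x - v by abel]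
    · simp only [indicator_of_notMem hy]
      rw [mem_closedBall_iff_norm, not_le] at hy
      rw [kk_scale_zero hr hy.le]
      linarith [kk_nonneg (r⁻¹ • (y - (x + -v))), kk_nonneg (r⁻¹ • (y - (x + v)))]
  have i2 : Integrable (fun y => 2 * kk (r⁻¹ • (y - x)) - kk (r⁻¹ • (y - (x + -v)))) μ :=
    ((i x).const_mul 2).sub (i _)
  rw [integral_sub i2 (i _), integral_sub ((i x).const_mul 2) (i _),
    integral_const_mul, integral_indicator measurableSet_closedBall, setIntegral_const, smul_eq_mul,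
    norm_smul, norm_inv, Real.norm_eq_abs, abs_of_pos hr] at h1
  have h2 := mul_le_mul_of_nonneg_right (h.real_le hA x hr)
    (by positivity : 0 ≤ 8 * (r⁻¹ * ‖v‖) ^ 2)
  have h3 : A * r ^ 2 * (8 * (r⁻¹ * ‖v‖) ^ 2) = 8 * A * ‖v‖ ^ 2 := by field_simp
  unfold P218UA.mk
  rw [← mul_div_assoc, ← sub_div, ← sub_div, div_mul_eq_mul_div]
  exact div_le_div_of_nonneg_right (by linarith) (by positivity)

variable {w : ℝ → E3 → ℝ} {I : Set ℝ} {A σ : ℝ}

/-- the mass ratio as a function of time, centre and level -/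
noncomputable def mm (w : ℝ → E3 → ℝ) (a : ST × ℝ) : ℝ := mk (ar (w a.1.1)) a.1.2 (Real.exp a.2)

/-- the averaged mass ratio as a function of time, centre and level -/
noncomputable def tb (w : ℝ → E3 → ℝ) (σ : ℝ) (a : ST × ℝ) : ℝ := tbar w σ a.1.1 a.1.2 a.2

lemma cd_mm (hC : Calc) (hw : IsFlow w I) {a : ST × ℝ} (ha : a.1.1 ∈ I) :
    ContDiffAt ℝ 2 (mm w) a := by
  set U : Set (ST × ℝ) := {b | b.1.1 ∈ I} ∩ ({b | ‖b.1.2 - a.1.2‖ < 1} ∩ {b | b.2 < a.2 + 1})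
  have hU : IsOpen U := (hw.isOpen.preimage (by fun_prop)).inter
    ((isOpen_lt (by fun_prop) (by fun_prop)).inter (isOpen_lt (by fun_prop) (by fun_prop)))
  have he : ContDiff ℝ 2 fun b : (ST × ℝ) × E3 => (Real.exp b.1.2)⁻¹ :=
    ContDiff.inv (by fun_prop) fun b => (Real.exp_pos _).ne'
  have h1 := hC.param w I hw 2 (ST × ℝ) (fun b => b.1.1)
    (fun b z => kk ((Real.exp b.2)⁻¹ • (z - b.1.2))) U hU (by fun_prop) (fun b hb => hb.1)
    (contDiff_kk.comp (he.smul (by fun_prop))).contDiffOn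
    (closedBall a.1.2 (1 + Real.exp (a.2 + 1))) (isCompact_closedBall _ _) fun b hb z hz => by
      refine kk_scale_zero (Real.exp_pos _) ?_
      rw [mem_closedBall_iff_norm, not_le] at hz
      have h2 : ‖b.1.2 - a.1.2‖ < 1 := hb.2.1
      have h3 := Real.exp_le_exp.2 (le_of_lt hb.2.2)
      linarith [norm_sub_le_norm_sub_add_norm_sub z b.1.2 a.1.2]
  exact (h1.contDiffAt (hU.mem_nhds ⟨ha, by simp, by simp⟩)).div (by fun_prop) (by positivity)

lemma tb_eq (hσ : 0 < σ) (a : ST × ℝ) : tb w σ a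
    = ∫ s in (0 : ℝ)..1, mm w ((a.1.1 - σ * Real.exp (2 * a.2) * s, a.1.2), a.2) := by
  have h := intervalIntegral.integral_comp_sub_mul
    (f := fun t => mk (ar (w t)) a.1.2 (Real.exp a.2)) (a := 0) (b := 1)
    (c := σ * Real.exp (2 * a.2)) (by positivity) a.1.1
  simp only [mul_one, mul_zero, sub_zero, smul_eq_mul] at h
  rw [tb, tbar, div_eq_inv_mul, ← h]
  rfl

lemma win_mem (hσ : 0 < σ) (t y : ℝ) {s : ℝ} (hs : s ∈ Icc (0 : ℝ) 1) :
    t - σ * Real.exp (2 * y) * s ∈ Icc (t - σ * Real.exp (2 * y)) t := by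
  have : 0 < σ * Real.exp (2 * y) := by positivity
  exact ⟨by nlinarith [hs.2], by nlinarith [hs.1]⟩

lemma cd_tb (hC : Calc) (hw : IsFlow w I) (hσ : 0 < σ) {a : ST × ℝ}
    (ha : Icc (a.1.1 - σ * Real.exp (2 * a.2)) a.1.1 ⊆ I) : ContDiffAt ℝ 2 (tb w σ) a := by
  rw [funext (tb_eq (w := w) hσ)]
  refine (parInt (f := fun z : (ST × ℝ) × ℝ =>
      mm w ((z.1.1.1 - σ * Real.exp (2 * z.1.2) * z.2, z.1.1.2), z.1.2))
    (W := {z | z.1.1.1 - σ * Real.exp (2 * z.1.2) * z.2 ∈ I})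
    (hw.isOpen.preimage (by fun_prop)) (fun z hz => ?_) fun s hs => ha (win_mem hσ _ _ hs)).1
  exact (ContDiffAt.comp z (g := mm w) (f := fun z : (ST × ℝ) × ℝ =>
    (((z.1.1.1 - σ * Real.exp (2 * z.1.2) * z.2, z.1.1.2), z.1.2) : ST × ℝ)) (cd_mm hC hw hz)
    (by fun_prop)).contDiffWithinAt

lemma ii_mm (hC : Calc) (hw : IsFlow w I) (hσ : 0 < σ) {t y : ℝ}
    (ha : Icc (t - σ * Real.exp (2 * y)) t ⊆ I) (x : E3) :
    IntervalIntegrable (fun s => mm w ((t - σ * Real.exp (2 * y) * s, x), y)) volume 0 1 := by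
  refine ContinuousOn.intervalIntegrable_of_Icc zero_le_one fun s hs => ?_
  exact (ContinuousAt.comp (g := mm w)
    (f := fun s : ℝ => (((t - σ * Real.exp (2 * y) * s, x), y) : ST × ℝ))
    (cd_mm hC hw (ha (win_mem hσ _ _ hs))).continuousAt (by fun_prop)).continuousWithinAt

lemma tbar_le (hσ : 0 < σ) {t y B : ℝ} {x : E3}
    (h : ∀ s ∈ Icc (t - σ * Real.exp (2 * y)) t, mk (ar (w s)) x (Real.exp y) ≤ B) :
    tbar w σ t x y ≤ B := by
  have h1 := intervalIntegral.norm_integral_le_of_norm_le_const (a := 0) (b := 1) (C := B)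
    (f := fun s => mm w ((t - σ * Real.exp (2 * y) * s, x), y)) fun s hs => by
      rw [uIoc_of_le zero_le_one] at hs
      rw [Real.norm_eq_abs, mm, abs_of_nonneg (mk_nonneg _ _ _)]
      exact h _ (win_mem hσ _ _ (Ioc_subset_Icc_self hs))
  rw [← tb_eq hσ ((t, x), y)] at h1
  exact ((le_abs_self _).trans h1).trans_eq (by simp)

lemma tbar_le_A (hw : IsARFlow w I A) (hσ : 0 < σ) {t y : ℝ}
    (ha : Icc (t - σ * Real.exp (2 * y)) t ⊆ I) (x : E3) : tbar w σ t x y ≤ 4 / 3 * A :=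
  tbar_le hσ fun s hs => mk_le (hw.ratio s (ha hs)) (by linarith [hw.one_le]) x (Real.exp_pos y)

lemma cd_tb' (hC : Calc) (hw : IsFlow w I) (hσ : 0 < σ) {p : ST} {y : ℝ}
    (ha : Icc (p.1 - σ * Real.exp (2 * y)) p.1 ⊆ I) :
    ContDiffAt ℝ 2 (fun q : ST => tb w σ (q, y)) p :=
  ContDiffAt.comp p (g := tb w σ) (cd_tb hC hw hσ (a := (p, y)) ha) (by fun_prop)

lemma tb_grad (hC : Calc) (hw : IsARFlow w I A) (hσ : 0 < σ) {p : ST} {y : ℝ}
    (ha : Icc (p.1 - σ * Real.exp (2 * y)) p.1 ⊆ I) {e : E3} (he : ‖e‖ = 1) :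
    |fderiv ℝ (fun q : ST => tb w σ (q, y)) p (sp e)| ≤ 32 * A / Real.exp y := by
  have hA : 0 ≤ A := by linarith [hw.one_le]
  have h1 : HasDerivAt (fun s : ℝ => p + s • sp e) (sp e) 0 := by
    simpa using ((hasDerivAt_id (0 : ℝ)).smul_const (sp e)).const_add p
  have h2 := (diff1 (cd_tb' hC hw.toIsFlow hσ ha)).hasFDerivAt.comp_hasDerivAt_of_eq 0 h1 (by simp)
  refine h2.le_of_lip' (by positivity) ?_
  filter_upwards [Metric.ball_mem_nhds (0 : ℝ) (Real.exp_pos y)] with s hs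
  rw [mem_ball_zero_iff] at hs
  simp only [Function.comp, tb_eq hσ, Prod.fst_add, Prod.smul_fst, smul_zero, add_zero, zero_smul,
    Prod.snd_add, Prod.smul_snd, sub_zero]
  rw [← intervalIntegral.integral_sub (ii_mm hC hw.toIsFlow hσ ha _) (ii_mm hC hw.toIsFlow hσ ha _)]
  refine (intervalIntegral.norm_integral_le_of_norm_le_const
    (C := 32 * A / Real.exp y * ‖s‖) fun τ hτ => ?_).trans (by simp)
  rw [uIoc_of_le zero_le_one] at hτ
  have h3 : ‖p.2 + s • e - p.2‖ = ‖s‖ := by rw [add_sub_cancel_left, norm_smul, he, mul_one]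
  have h4 := abs_mk_sub_le (hw.ratio _ (ha (win_mem hσ _ _ (Ioc_subset_Icc_self hτ)))) hA
    (x := p.2 + s • e) (x' := p.2) (Real.exp_pos y) (by rw [h3]; exact hs.le)
  rw [h3] at h4
  exact h4.trans_eq (by ring)

lemma tb_D2 (hC : Calc) (hw : IsARFlow w I A) (hσ : 0 < σ) {p : ST} {y : ℝ}
    (ha : Icc (p.1 - σ * Real.exp (2 * y)) p.1 ⊆ I) {e : E3} (he : ‖e‖ = 1) :
    -(8 * A / Real.exp y ^ 2) ≤ D2 (fun q : ST => tb w σ (q, y)) p (sp e) := by
  have hA : 0 ≤ A := by linarith [hw.one_le]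
  refine D2_ge (cd_tb' hC hw.toIsFlow hσ ha) (Eventually.of_forall fun s => ?_)
  simp only [tb_eq hσ, Prod.fst_add, Prod.smul_fst, smul_zero, add_zero, Prod.snd_add,
    Prod.smul_snd, Prod.fst_neg, Prod.snd_neg, neg_zero, smul_neg]
  have i := ii_mm hC hw.toIsFlow hσ ha
  rw [← intervalIntegral.integral_add (i _) (i _), ← intervalIntegral.integral_const_mul,
    ← intervalIntegral.integral_sub ((i _).add (i _)) ((i _).const_mul 2)]
  refine le_trans (by simp) (intervalIntegral.integral_mono_on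
    (f := fun _ => -(8 * A / Real.exp y ^ 2 * s ^ 2)) zero_le_one intervalIntegrable_const
    (((i _).add (i _)).sub ((i _).const_mul 2)) fun τ hτ => ?_)
  have h4 := mk_second (hw.ratio _ (ha (win_mem hσ _ _ hτ))) hA p.2 (s • e) (Real.exp_pos y)
  rw [norm_smul, he, mul_one, Real.norm_eq_abs, sq_abs] at h4
  simp only [mm]
  linarith

lemma tb_time (hC : Calc) (hw : IsARFlow w I A) (hσ : 0 < σ) {p : ST} {y : ℝ}
    (ha : Icc (p.1 - σ * Real.exp (2 * y)) p.1 ⊆ I) :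
    fderiv ℝ (fun q : ST => tb w σ (q, y)) p tv = (mk (ar (w p.1)) p.2 (Real.exp y)
      - mk (ar (w (p.1 - σ * Real.exp (2 * y)))) p.2 (Real.exp y)) / (σ * Real.exp (2 * y)) := by
  rw [← deriv_time (diff1 (cd_tb' hC hw.toIsFlow hσ ha))]
  set c := σ * Real.exp (2 * y) with hc
  have hc0 : 0 < c := by positivity
  set m : ℝ → ℝ := fun s => mk (ar (w s)) p.2 (Real.exp y) with hm
  have h1 : ContinuousOn m I := continuousOn_mk hC hw p.2 (Real.exp_pos y)
  have ht : p.1 ∈ I := ha ⟨by linarith, le_rfl⟩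
  have ht' : p.1 - c ∈ I := ha ⟨le_rfl, by linarith⟩
  have i : ∀ u ∈ I, IntervalIntegrable m volume p.1 u := fun u hu =>
    (h1.mono (hw.conn.uIcc_subset ht hu)).intervalIntegrable
  have d : ∀ u ∈ I, HasDerivAt (fun u => ∫ s in p.1..u, m s) (m u) u := fun u hu =>
    intervalIntegral.integral_hasDerivAt_right (i u hu)
      (h1.stronglyMeasurableAtFilter hw.isOpen u hu) (h1.continuousAt (hw.isOpen.mem_nhds hu))
  have h2 := ((d _ ht).sub ((d _ ht').comp_sub_const p.1 c)).div_const c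
  refine (h2.congr_of_eventuallyEq ?_).deriv
  have h3 : ∀ᶠ s in 𝓝 p.1, s - c ∈ I :=
    (by fun_prop : ContinuousAt (fun s : ℝ => s - c) p.1).eventually (hw.isOpen.mem_nhds ht')
  filter_upwards [hw.isOpen.mem_nhds ht, h3] with s h4 h5
  simp only [Pi.sub_apply]
  rw [intervalIntegral.integral_interval_sub_left (i _ h4) (i _ h5)]
  rfl

/-- the mass has just dropped -/
lemma tb_drop (hC : Calc) (hD : CylDensStmt) (hw : IsARFlow w I A) (hσ : 0 < σ)
    (hσA : σ * A ≤ 1 / 40) {p : ST} {y θ : ℝ} (hθ : θ ≤ 1 / 10)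
    (ha : Icc (p.1 - σ * Real.exp (2 * y)) p.1 ⊆ I) (hR : Reg (w p.1) θ p.2 (Real.exp y))
    (h : 3 / 2 ≤ tbar w σ p.1 p.2 y) :
    fderiv ℝ (fun q : ST => tb w σ (q, y)) p tv ≤ -(3 / 10) / (σ * Real.exp y ^ 2) := by
  have e : Real.exp (2 * y) = Real.exp y ^ 2 := by rw [← Real.exp_nat_mul]; norm_num
  have hc0 : 0 < σ * Real.exp (2 * y) := by positivity
  have ht : p.1 ∈ I := ha ⟨by linarith, le_rfl⟩
  have ht' : p.1 - σ * Real.exp (2 * y) ∈ I := ha ⟨le_rfl, by linarith⟩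
  have h1 := mk_le_of_reg hD (flow_slice hw.toIsFlow ht).smooth.continuous hθ (Real.exp_pos y) hR
  have h2 : tbar w σ p.1 p.2 y ≤ mk (ar (w (p.1 - σ * Real.exp (2 * y)))) p.2 (Real.exp y)
      + 3 * (σ * A) := by
    refine tbar_le hσ fun s hs => (mk_almost_anti hC hw p.2 (Real.exp_pos y) ht' (ha hs) hs.1).trans ?_
    have h3 : 3 * A / Real.exp y ^ 2 * (s - (p.1 - σ * Real.exp (2 * y)))
        ≤ 3 * A / Real.exp y ^ 2 * (σ * Real.exp (2 * y)) :=
      mul_le_mul_of_nonneg_left (by linarith [hs.2]) (by have := hw.one_le; positivity)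
    have h4 : 3 * A / Real.exp y ^ 2 * (σ * Real.exp (2 * y)) = 3 * (σ * A) := by
      rw [e]; field_simp
    linarith
  rw [tb_time hC hw hσ ha, ← e]
  exact div_le_div_of_nonneg_right (by linarith) hc0.le

end Vale.Agent.P218UO
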